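import Mathlib

/-! Equivariant acyclic carrier lemma over `ZMod 2`. -/

namespace Vale.Agent.P052

/-- The field with two elements. -/
abbrev F : Type := ZMod 2

theorem add_self' {D : Type} [AddCommGroup D] [Module F D] (x : D) : x + x = 0 := by
  have h : (2 : F) = 0 := rfl
  rw [← two_smul F x, h, zero_smul]

/-- Linear extension of a function on a basis. -/
noncomputable abbrev lin {B D : Type} [AddCommGroup D] [Module F D] (h : B → D) :
    (B →₀ F) →ₗ[F] D := Finsupp.linearCombination F h

theorem lin_single {B D : Type} [AddCommGroup D] [Module F D] (h : B → D) (b : B) :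
    lin h (Finsupp.single b 1) = h b := by
  simp [lin]

theorem lin_congr {B D : Type} [AddCommGroup D] [Module F D] {h h' : B → D} {z : B →₀ F}
    (hz : ∀ b ∈ z.support, h b = h' b) : lin h z = lin h' z := by
  simp only [lin, Finsupp.linearCombination_apply, Finsupp.sum]
  exact Finset.sum_congr rfl fun b hb => by rw [hz b hb]

theorem lin_mem {B D : Type} [AddCommGroup D] [Module F D] {h : B → D} {z : B →₀ F}
    {S : Submodule F D} (hz : ∀ b ∈ z.support, h b ∈ S) : lin h z ∈ S := by
  simp only [lin, Finsupp.linearCombination_apply, Finsupp.sum]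
  exact S.sum_mem fun b hb => S.smul_mem _ (hz b hb)

theorem map_lin {B D D' : Type} [AddCommGroup D] [Module F D] [AddCommGroup D'] [Module F D']
    (L : D →ₗ[F] D') (h : B → D) (z : B →₀ F) : L (lin h z) = lin (fun b => L (h b)) z := by
  simp only [lin, Finsupp.linearCombination_apply, Finsupp.sum, map_sum, map_smul]

theorem lin_add {B D : Type} [AddCommGroup D] [Module F D] (h h' : B → D) (z : B →₀ F) :
    lin (fun b => h b + h' b) z = lin h z + lin h' z := by
  simp only [lin, Finsupp.linearCombination_apply, Finsupp.sum, smul_add, Finset.sum_add_distrib]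

theorem lin_zero {B D : Type} [AddCommGroup D] [Module F D] (z : B →₀ F) :
    lin (fun _ : B => (0 : D)) z = 0 := by
  simp [lin, Finsupp.linearCombination_apply]

theorem lin_mapDomain {B B' D : Type} [AddCommGroup D] [Module F D] (h : B' → D) (f : B → B')
    (z : B →₀ F) : lin h (z.mapDomain f) = lin (fun b => h (f b)) z :=
  Finsupp.linearCombination_mapDomain F f z

theorem lin_single_eq {B : Type} (z : B →₀ F) : lin (fun b => Finsupp.single b (1 : F)) z = z := by
  simp only [lin, Finsupp.linearCombination_apply, Finsupp.smul_single, smul_eq_mul, mul_one]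
  exact Finsupp.sum_single z

theorem mapDomain_eq_lin {B B' : Type} (f : B → B') (z : B →₀ F) :
    z.mapDomain f = lin (fun b => Finsupp.single (f b) (1 : F)) z := by
  rw [← lin_mapDomain (fun b => Finsupp.single b (1 : F)) f z, lin_single_eq]

theorem carrier {G B D : Type} [Group G] [MulAction G B] [AddCommGroup D] [Module F D]
    (ρ : Representation F G D) (d : D →ₗ[F] D) (hd : ∀ g x, d (ρ g x) = ρ g (d x))
    (Adm : B → Prop) (deg : B → ℕ) (bd : B → B →₀ F)
    (hAdm : ∀ (g : G) b, Adm b → Adm (g • b)) (hdeg : ∀ (g : G) b, Adm b → deg (g • b) = deg b)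
    (hbd : ∀ b, Adm b → ∀ b' ∈ (bd b).support, Adm b' ∧ deg b' < deg b)
    (hbdG : ∀ (g : G) b, Adm b → bd (g • b) = (bd b).mapDomain (g • ·))
    (hbdbd : ∀ b, Adm b → lin bd (bd b) = 0)
    (hfree : ∀ (g : G) b, Adm b → 0 < deg b → g • b = b → ∀ x, ρ g x = x)
    (δ : B → D) (hδG : ∀ (g : G) b, Adm b → δ (g • b) = ρ g (δ b))
    (hδ : ∀ b, Adm b → d (δ b) = lin δ (bd b))
    (S T : B → Submodule F D) (hS : ∀ (g : G) b x, Adm b → x ∈ S b → ρ g x ∈ S (g • b))
    (hδT : ∀ b, Adm b → δ b ∈ T b)
    (hST : ∀ b, Adm b → ∀ b' ∈ (bd b).support, S b' ≤ T b)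
    (hexact : ∀ b, Adm b → 0 < deg b → ∀ z ∈ T b, d z = 0 → ∃ c ∈ S b, d c = z)
    (h0 : B → D) (hbase : ∀ b, Adm b → deg b = 0 →
      h0 b ∈ S b ∧ d (h0 b) = δ b ∧ ∀ g : G, h0 (g • b) = ρ g (h0 b)) (n : ℕ) :
    ∃ h : B → D, ∀ b, Adm b → deg b ≤ n → h b ∈ S b ∧ d (h b) = δ b + lin h (bd b) ∧
      (∀ g : G, h (g • b) = ρ g (h b)) ∧ (deg b = 0 → h b = h0 b) := by
  classical
  induction n with
  | zero =>
    refine ⟨h0, fun b hb hn => ?_⟩
    have hn' : deg b = 0 := by omega
    obtain ⟨h1, h2, h3⟩ := hbase b hb hn'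
    refine ⟨h1, ?_, h3, fun _ => rfl⟩
    have : bd b = 0 := by
      rw [← Finsupp.support_eq_empty, Finset.eq_empty_iff_forall_notMem]
      intro b' hb'
      have := (hbd b hb b' hb').2
      omega
    rw [this, map_zero, add_zero, h2]
  | succ n ih =>
    obtain ⟨h, hh⟩ := ih
    let rep : B → B := fun b => (Quotient.mk (MulAction.orbitRel G B) b).out
    have hrep : ∀ b, ∃ g : G, g • rep b = b := by
      intro b
      have : (MulAction.orbitRel G B) b (rep b) :=
        Quotient.exact (Quotient.out_eq (Quotient.mk (MulAction.orbitRel G B) b)).symm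
      exact this
    choose γ hγ using hrep
    have hrepG : ∀ (g : G) b, rep (g • b) = rep b := by
      intro g b
      have : Quotient.mk (MulAction.orbitRel G B) (g • b) = Quotient.mk _ b :=
        Quotient.sound ⟨g, rfl⟩
      simp only [rep, this]
    have hrepA : ∀ b, Adm b → Adm (rep b) ∧ deg (rep b) = deg b := by
      intro b hb
      have h1 : rep b = (γ b)⁻¹ • b := by rw [eq_inv_smul_iff, hγ]
      rw [h1]
      exact ⟨hAdm _ _ hb, hdeg _ _ hb⟩
    have hc : ∀ b, ∃ c, Adm b → deg b = n + 1 → c ∈ S b ∧ d c = δ b + lin h (bd b) := by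
      intro b
      by_cases hb : Adm b ∧ deg b = n + 1
      · obtain ⟨hb1, hb2⟩ := hb
        have hf : ∀ b' ∈ (bd b).support, Adm b' ∧ deg b' ≤ n := fun b' hb' =>
          ⟨(hbd b hb1 b' hb').1, by have := (hbd b hb1 b' hb').2; omega⟩
        obtain ⟨c, hc1, hc2⟩ := hexact b hb1 (by omega) (δ b + lin h (bd b))
          ((T b).add_mem (hδT b hb1) (lin_mem fun b' hb' =>
            hST b hb1 b' hb' (hh b' (hf b' hb').1 (hf b' hb').2).1)) (by
          rw [map_add, hδ b hb1, map_lin,
            lin_congr (fun b' hb' => (hh b' (hf b' hb').1 (hf b' hb').2).2.1), lin_add,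
            ← map_lin (lin h) bd, hbdbd b hb1, map_zero, add_zero, add_self'])
        exact ⟨c, fun _ _ => ⟨hc1, hc2⟩⟩
      · exact ⟨0, fun h1 h2 => absurd ⟨h1, h2⟩ hb⟩
    choose c hc using hc
    let h' : B → D := fun b => if deg b = n + 1 then ρ (γ b) (c (rep b)) else h b
    have hlow : ∀ b, deg b ≤ n → h' b = h b := fun b hb => if_neg (by omega)
    have hlin : ∀ b, Adm b → deg b ≤ n + 1 → lin h' (bd b) = lin h (bd b) := fun b hb hn =>
      lin_congr fun b' hb' => hlow b' (by have := (hbd b hb b' hb').2; omega)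
    refine ⟨h', fun b hb hn => ?_⟩
    rcases hn.lt_or_eq with hn' | hn'
    · have hn'' : deg b ≤ n := by omega
      obtain ⟨h1, h2, h3, h4⟩ := hh b hb hn''
      rw [hlin b hb hn, hlow b hn'']
      refine ⟨h1, h2, fun g => ?_, h4⟩
      rw [hlow _ (by rw [hdeg g b hb]; exact hn''), h3]
    · obtain ⟨hA, hD⟩ := hrepA b hb
      obtain ⟨h1, h2⟩ := hc (rep b) hA (hD.trans hn')
      have e1 : h' b = ρ (γ b) (c (rep b)) := if_pos hn'
      refine ⟨?_, ?_, fun g => ?_, fun h => by omega⟩
      · rw [e1]
        have := hS (γ b) _ _ hA h1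
        rwa [hγ] at this
      · rw [e1, hd, h2, map_add, ← hδG _ _ hA, hγ, hlin b hb hn, map_lin]
        congr 1
        conv_rhs => rw [← hγ b, hbdG _ _ hA, lin_mapDomain]
        refine lin_congr fun b' hb' => ?_
        have := hbd _ hA b' hb'
        exact ((hh b' this.1 (by omega)).2.2.1 _).symm
      · have e2 : h' (g • b) = ρ (γ (g • b)) (c (rep b)) := by
          simp only [h']
          rw [if_pos (by rw [hdeg g b hb]; exact hn'), hrepG]
        rw [e1, e2]
        have h3 : ((g * γ b)⁻¹ * γ (g • b)) • rep b = rep b := by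
          rw [mul_smul, inv_smul_eq_iff, mul_smul, hγ b, ← hrepG g b, hγ]
        have h4 := hfree _ _ hA (by omega) h3 (c (rep b))
        have h5 : γ (g • b) = g * γ b * ((g * γ b)⁻¹ * γ (g • b)) := by group
        rw [h5, map_mul, map_mul, Module.End.mul_apply, Module.End.mul_apply, h4]

/-- The permutation representation on formal sums. -/
noncomputable def perm (G B : Type) [Group G] [MulAction G B] :
    Representation F G (B →₀ F) where
  toFun g := Finsupp.lmapDomain F F (g • ·)
  map_one' := by
    ext1 b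
    ext1
    simp
  map_mul' g h := by
    ext1 b
    ext1
    simp [mul_smul]

theorem perm_apply {G B : Type} [Group G] [MulAction G B] (g : G) (z : B →₀ F) :
    perm G B g z = z.mapDomain (g • ·) := rfl

theorem list_sum_eq_zero {A D : Type} [DecidableEq A] [AddCommGroup D] [Module F D] (l : List A)
    (h : ∀ a ∈ l, l.count a % 2 = 0) (f : A → D) : (l.map f).sum = 0 := by
  rw [Finset.sum_list_map_count]
  refine Finset.sum_eq_zero fun a ha => ?_
  obtain ⟨k, hk⟩ : ∃ k, l.count a = k + k :=
    ⟨l.count a / 2, by have := h a (List.mem_toFinset.1 ha); omega⟩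
  rw [hk, add_smul, add_self']

theorem norm_zero {G B : Type} [Group G] [Fintype G] [MulAction G B] (Adm : B → Prop)
    (hfree : ∀ (g : G) b, Adm b → g • b = b → g = 1) (f : B → F)
    (hf : ∀ (g : G) b, Adm b → f (g • b) = f b) (z : B →₀ F) (hz : ∀ b ∈ z.support, Adm b)
    (hN : ∑ g : G, perm G B g z = 0) : lin f z = 0 := by
  classical
  let rep : B → B := fun b => (Quotient.mk (MulAction.orbitRel G B) b).out
  have hrep : ∀ b, ∃ g : G, g • b = rep b := by
    intro b
    have : (MulAction.orbitRel G B) (rep b) b :=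
      Quotient.exact (Quotient.out_eq (Quotient.mk (MulAction.orbitRel G B) b))
    exact this
  have hrepG : ∀ (g : G) b, rep (g • b) = rep b := by
    intro g b
    have : Quotient.mk (MulAction.orbitRel G B) (g • b) = Quotient.mk _ b :=
      Quotient.sound ⟨g, rfl⟩
    simp only [rep, this]
  let f' : B → F := fun b => if b = rep b then f b else 0
  have key : ∀ b, Adm b → ∑ g : G, f' (g • b) = f b := by
    intro b hb
    obtain ⟨g0, hg0⟩ := hrep b
    rw [Finset.sum_eq_single g0]
    · simp only [f']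
      rw [if_pos (by rw [hrepG, hg0]), hf g0 b hb]
    · intro g _ hg
      simp only [f']
      refine if_neg fun h => hg ?_
      rw [hrepG, ← hg0] at h
      have := hfree (g0⁻¹ * g) b hb (by rw [mul_smul, h, inv_smul_smul])
      exact (inv_mul_eq_one.1 this).symm
    · simp
  have h1 := congrArg (lin f') hN
  rw [map_sum, map_zero] at h1
  simp only [perm_apply, lin_mapDomain] at h1
  rw [← h1, lin_congr (fun b hb => (key b (hz b hb)).symm)]
  simp only [lin, Finsupp.linearCombination_apply, Finsupp.sum, Finset.smul_sum]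
  exact Finset.sum_comm

end Vale.Agent.P052
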