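import Vale.Agent.P052.Cert0
import Vale.Agent.P052.Cert1

/-! The finite argument. -/

namespace Vale.Agent.P052

open Finset

/-- All hints. -/
def hsMain : List ℕ :=
  hs0 ++ (hs1 ++ (hs2 ++ (hs3 ++ (hs4 ++ (hs5 ++ (hs6 ++ (hs7 ++ (hs8 ++ (hs9 ++ (hs10 ++ (hs11 ++ (hs12 ++ (hs13 ++ (hs14 ++ (hs15 ++ (hs16 ++ (hs17 ++ (hs18 ++ (hs19 ++ (hs20 ++ (hs21 ++ (hs22))))))))))))))))))))))

theorem main_ok : check [] trMain hsMain 1 = true :=
  check_append hs0_ok
  (check_append hs1_ok
  (check_append hs2_ok
  (check_append hs3_ok
  (check_append hs4_ok
  (check_append hs5_ok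
  (check_append hs6_ok
  (check_append hs7_ok
  (check_append hs8_ok
  (check_append hs9_ok
  (check_append hs10_ok
  (check_append hs11_ok
  (check_append hs12_ok
  (check_append hs13_ok
  (check_append hs14_ok
  (check_append hs15_ok
  (check_append hs16_ok
  (check_append hs17_ok
  (check_append hs18_ok
  (check_append hs19_ok
  (check_append hs20_ok
  (check_append hs21_ok (hs22_ok) (by decide +kernel)) (by decide +kernel)) (by decide +kernel)) (by decide +kernel)) (by decide +kernel)) (by decide +kernel)) (by decide +kernel)) (by decide +kernel)) (by decide +kernel)) (by decide +kernel)) (by decide +kernel)) (by decide +kernel)) (by decide +kernel)) (by decide +kernel)) (by decide +kernel)) (by decide +kernel)) (by decide +kernel)) (by decide +kernel)) (by decide +kernel)) (by decide +kernel)) (by decide +kernel)) (by decide +kernel)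

theorem main_ok' : stageB 15 512 112 384 trMain hsMain.length = true := by decide +kernel

/-- The remaining cases. -/
def certRest : List (ℕ × ℕ × ℕ × ℕ × Tr × List ℕ) :=
  [(1, 30, 224, 768, .node (.leaf 3299474530310) (.leaf 0), [475504375385476900114904645632]),
  (15, 16, 96, 896, .node (.leaf 3848693415998) (.leaf 0), [59962730106769887247533604864]),
  (1, 30, 96, 896, .node (.leaf 3848693473286) (.leaf 0), [59962721260979643151500181504]),
  (7, 24, 480, 512, .node (.leaf 2201036619806) (.leaf 0), [14859814220453682422103408640]),
  (3, 28, 480, 512, .node (.leaf 2201036636174) (.leaf 0), [1874137529063143141997019136]),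
  (7, 24, 32, 960, .node (.leaf 4123302920222) (.leaf 0), [14859531155165871349033861120]),
  (3, 28, 32, 960, .node (.leaf 4123302936590) (.leaf 0), [1873854463775332068927471616]),
  (15, 48, 448, 512, .node (.leaf 2200902500414) (.leaf 0), [23402009243943033]),
  (3, 60, 448, 512, .node (.leaf 2200902549518) (.leaf 0), [317183451246630506681897844736]),
  (15, 48, 64, 896, .node (.leaf 3848559329342) (.leaf 0), [40155708367669734327728472064]),
  (3, 60, 64, 896, .node (.leaf 3848559378446) (.leaf 0), [40155681830299002039628201984]),
  (7, 8, 240, 768, .node (.leaf 3299541549086) (.leaf 0), [4956444883547511498735616000]),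
  (1, 14, 240, 768, .node (.leaf 3299541573638) (.leaf 0), [627885986417331738700152832]),
  (7, 8, 48, 960, .node (.leaf 4123369963550) (.leaf 0), [4956020285615794889131294720]),
  (1, 14, 48, 960, .node (.leaf 4123369988102) (.leaf 0), [627461388485615129095831552]),
  (15, 112, 384, 512, .node (.leaf 2200634327102) (.leaf 0), [28019743432165756906345143798573735534135848468480]),
  (7, 120, 384, 512, .node (.leaf 2200634359838) (.leaf 0), [317144768016173725121335263232]),
  (15, 112, 128, 768, .node (.leaf 3299072213054) (.leaf 0), [79692456151278429814480961536]),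
  (7, 120, 128, 768, .node (.leaf 3299072245790) (.leaf 0), [79692394230746721142246998016]),
  (3, 4, 120, 896, .node (.leaf 3848794030094) (.leaf 0), [2478222442025957328500555776]),
  (1, 6, 120, 896, .node (.leaf 3848794038278) (.leaf 0), [623125771827308859913928704]),
  (3, 4, 56, 960, .node (.leaf 4123403501582) (.leaf 0), [2477727077772287950628847616]),
  (1, 6, 56, 960, .node (.leaf 4123403509766) (.leaf 0), [622630407573639482042220544]),
  (15, 48, 192, 768, .node (.leaf 3299340386366) (.leaf 0), [23404206119714937]),
  (3, 60, 192, 768, .node (.leaf 3299340435470) (.leaf 0), [475485033770248509334623354880]),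
  (3, 12, 240, 768, .node (.leaf 3299541565454) (.leaf 0), [7429907110479042790184452096]),
  (3, 12, 48, 960, .node (.leaf 4123369979918) (.leaf 0), [7429482512547326180580130816]),
  (7, 56, 448, 512, .node (.node (.node (.node (.leaf 2200902533150) (.leaf 2226672304166)) (.node (.leaf 2213787435026) (.leaf 2209492451366))) (.node (.node (.leaf 2209492467734) (.leaf 2213787418658)) (.node (.leaf 1924181196830) (.leaf 0)))) (.node (.node (.node (.leaf 2205197500442) (.leaf 1924189585430)) (.node (.leaf 2226672336902) (.leaf 2209492434998))) (.node (.node (.leaf 2235262238750) (.leaf 2405238046730)) (.leaf 2213787402290))), [416106580357359990920423336312832, 416740405657473529160419384492032, 387584441847503039364630172401664, 416741024627492595389804530630664, 417375468897624623398433421525008, 1486597632200440483075056644128792, 1665378103787615474761462441836576, 1665379960697672673449617880252456, 1390256186885325350543459887349808, 1634320664082026160267802426998840, 1391593160248249971675975236190280, 1055003720810066864335106435186768, 1060419445774328318993478222610520, 5326506086018856605498952281319812759864333005295106475364219617384]),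
  (7, 56, 64, 896, .node (.leaf 3848559362078) (.leaf 0), [40155713085424531178946297856]),
  (7, 8, 112, 896, .node (.leaf 3848760492062) (.leaf 0), [4956520367624261118220828672]),
  (1, 14, 112, 896, .node (.leaf 3848760516614) (.leaf 0), [627961470494081358185365504]),
  (7, 56, 192, 768, .node (.node (.leaf 3299340419102) (.leaf 0)) (.leaf 3299340419103), [6656691603942237501197627523211861867301236572193, 8]),
  (3, 12, 112, 896, .node (.leaf 3848760508430) (.leaf 0), [7429982594555792409669664768]),
  (7, 24, 224, 768, .node (.leaf 3299474505758) (.leaf 0), [117730817433526304725156648686843195323744128073728]),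
  (3, 28, 224, 768, .node (.leaf 3299474522126) (.leaf 0), [475504376564915599327709102080]),
  (7, 24, 96, 896, .node (.leaf 3848693448734) (.leaf 0), [59962734824524684098751430656]),
  (3, 28, 96, 896, .node (.leaf 3848693465102) (.leaf 0), [59962722440418342364304637952])]

theorem rest_ok : stagesB certRest [pop 15 + 8 * (pop 512 + 8 * (pop 112 + 8 * pop 384))] = true := by
  decide +kernel

theorem cyc_zero {N : Finset Col → Prop}
    {a : Finset Col → Finset Col → Finset Col → Finset Col → F} (hN : Nerve N) (hC : Cyc N a)
    {P Q R S : Finset Col} (hP : Part P Q R S univ) : a P Q R S = 0 :=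
  stages hN hC certRest (stage hN hC (hz_nil hN hC) main_ok' main_ok) rest_ok hP

end Vale.Agent.P052
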