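import Vale.Agent.P052.Tab

/-! The coarse cell complex and the invariant of equivariant chain maps to the cube. -/

namespace Vale.Agent.P052

open Finsupp Pointwise

/-- Cells of the coarse complex. -/
inductive B1 : Type
  | emp : B1
  | cell : G → ℕ → B1

/-- The action on cells. -/
noncomputable def B1.act (g : G) : B1 → B1
  | .emp => .emp
  | .cell a k => .cell (g * a) k

noncomputable instance : MulAction G B1 where
  smul := B1.act
  one_smul b := by
    cases b
    · rfl
    · exact congrArg (B1.cell · _) (one_mul _)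
  mul_smul a b c := by
    cases c
    · rfl
    · exact congrArg (B1.cell · _) (mul_assoc _ _ _)

@[simp] theorem smul_emp (g : G) : g • B1.emp = B1.emp := rfl
@[simp] theorem smul_cell (g a : G) (k : ℕ) : g • B1.cell a k = B1.cell (g * a) k := rfl

/-- Admissible cells. -/
def Adm1 : B1 → Prop
  | .emp => True
  | .cell _ k => k < 648

/-- Degree of a cell. -/
noncomputable def deg1 : B1 → ℕ
  | .emp => 0
  | .cell _ k => dg k

/-- Boundary of a cell. -/
noncomputable def bd1 : B1 → (B1 →₀ F)
  | .emp => 0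
  | .cell g k => ((fcs k).map fun f => single (B1.cell (g * el (f % 256)) (f / 256)) 1).sum +
      if dg k = 1 then single B1.emp 1 else 0

theorem deg1_cell (g : G) (k : ℕ) : deg1 (.cell g k) = dg k := rfl

theorem lin_bd1 {D : Type} [AddCommGroup D] [Module F D] (h : B1 → D) (g : G) (k : ℕ) :
    lin h (bd1 (.cell g k)) = ((fcs k).map fun f => h (.cell (g * el (f % 256)) (f / 256))).sum +
      if dg k = 1 then h .emp else 0 := by
  rw [bd1, map_add, map_list_sum, List.map_map]
  refine congrArg₂ (· + ·) (congrArg List.sum (List.map_congr_left fun f _ => lin_single _ _)) ?_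
  split_ifs
  · exact lin_single _ _
  · exact map_zero _

theorem bd1_support {g : G} {k : ℕ} {b : B1} (hb : b ∈ (bd1 (.cell g k)).support) :
    (∃ f ∈ fcs k, b = .cell (g * el (f % 256)) (f / 256)) ∨ (dg k = 1 ∧ b = .emp) := by
  have : bd1 (.cell g k) ∈ supported F F
      {b | (∃ f ∈ fcs k, b = .cell (g * el (f % 256)) (f / 256)) ∨ (dg k = 1 ∧ b = .emp)} := by
    refine Submodule.add_mem _ (list_sum_mem fun x hx => ?_) ?_
    · obtain ⟨f, hf, rfl⟩ := List.mem_map.1 hx
      exact single_mem_supported F _ (Or.inl ⟨f, hf, rfl⟩)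
    · split_ifs with h
      · exact single_mem_supported F _ (Or.inr ⟨h, rfl⟩)
      · exact Submodule.zero_mem _
  exact this hb

theorem okS_spec {l : List ℕ} (h : okS l = true) : 1 ≤ l.length ∧ l.length ≤ 4 ∧
    ∀ a ∈ l, a < 16 ∧ ∀ b ∈ l, adjc a b = true := by
  simp only [okS, Bool.and_eq_true, Nat.ble_eq, List.all_eq_true] at h
  exact ⟨h.1.1, h.1.2, fun a ha => ⟨by have := (h.2 a ha).1; omega, (h.2 a ha).2⟩⟩

theorem okK_spec {k : ℕ} (hk : k < 648) : okS (sig k) = true ∧ okS (tau k) = true ∧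
    (∀ f ∈ fcs k, okc (f % 256) = true ∧ f / 256 < 648 ∧ dg (f / 256) + 1 = dg k ∧
      (∀ v ∈ sig (f / 256), mulc (f % 256 % 16) v ∈ sig k) ∧
      ∀ v ∈ tau (f / 256), mulc (f % 256 / 16) v ∈ tau k) ∧ togL (ff k) = [] ∧
    (∀ m ∈ cel k, validC m = true ∧ pop12 m = dg k + 5) ∧ togL (cc k) = [] := by
  have h := ok_all hk
  simp only [okK, okF, Bool.and_eq_true, Nat.ble_eq, List.all_eq_true, Nat.beq_eq, memL_iff,
    List.isEmpty_iff] at h
  obtain ⟨⟨⟨⟨⟨h1, h2⟩, h3⟩, h4⟩, h5⟩, h6⟩ := h
  refine ⟨h1, h2, fun f hf => ?_, h4, h5, h6⟩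
  obtain ⟨⟨⟨⟨a, b⟩, c⟩, d⟩, e⟩ := h3 f hf
  exact ⟨a, by omega, c, d, e⟩

theorem dg_bounds {k : ℕ} (hk : k < 648) : 1 ≤ dg k ∧ dg k ≤ 7 := by
  obtain ⟨h1, h2, -⟩ := okK_spec hk
  have h3 := okS_spec h1
  have h4 := okS_spec h2
  unfold dg
  omega

theorem adm1_smul (g : G) (b : B1) (h : Adm1 b) : Adm1 (g • b) := by cases b <;> exact h

theorem deg1_smul (g : G) (b : B1) : deg1 (g • b) = deg1 b := by cases b <;> rfl

theorem deg1_le (b : B1) (h : Adm1 b) : deg1 b ≤ 7 := by
  cases b
  · exact Nat.zero_le _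
  · exact (dg_bounds h).2

theorem deg1_eq_zero {b : B1} (h : Adm1 b) (h0 : deg1 b = 0) : b = .emp := by
  cases b
  · rfl
  · have := (dg_bounds h).1
    exact absurd h0 (by rw [deg1_cell]; omega)

theorem bd1_adm (b : B1) (h : Adm1 b) (b' : B1) (hb : b' ∈ (bd1 b).support) :
    Adm1 b' ∧ deg1 b' + 1 = deg1 b := by
  cases b with
  | emp => simp [bd1] at hb
  | cell g k =>
    rcases bd1_support hb with ⟨f, hf, rfl⟩ | ⟨h1, rfl⟩
    · have := (okK_spec h).2.2.1 f hf
      exact ⟨this.2.1, this.2.2.1⟩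
    · exact ⟨trivial, h1.symm⟩

theorem bd1_smul (g : G) (b : B1) : bd1 (g • b) = (bd1 b).mapDomain (g • ·) := by
  cases b with
  | emp => simp [bd1]
  | cell a k =>
    rw [mapDomain_eq_lin, lin_bd1, smul_cell, bd1]
    simp only [smul_cell, smul_emp, mul_assoc]

theorem sum_flatMap {A M : Type} [AddCommMonoid M] (l : List A) (φ : A → List ℕ) (f : ℕ → M) :
    ((l.flatMap φ).map f).sum = (l.map fun x => ((φ x).map f).sum).sum := by
  induction l with
  | nil => rfl
  | cons x l ih => simp [ih]

theorem bd1_bd1 (b : B1) (h : Adm1 b) : lin bd1 (bd1 b) = 0 := by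
  cases b with
  | emp => simp [bd1]
  | cell g k =>
    obtain ⟨-, -, h1, h2, -⟩ := okK_spec h
    let φ : ℕ → (B1 →₀ F) := fun n => if n = 0 then single .emp 1 else
      single (.cell (g * el ((n - 1) % 256)) ((n - 1) / 256)) 1
    have h3 := sum_togL φ (ff k)
    rw [h2, ff, sum_flatMap] at h3
    rw [lin_bd1, bd1, ite_self, add_zero]
    refine Eq.trans (congrArg List.sum (List.map_congr_left fun f hf => ?_)) h3.symm
    rw [bd1, List.map_append, List.sum_append, List.map_map]
    refine congrArg₂ (· + ·) (congrArg List.sum (List.map_congr_left fun f' hf' => ?_)) ?_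
    · have c1 := (h1 f hf).1
      have c2 := ((okK_spec (h1 f hf).2.1).2.2.1 f' hf').1
      have l1 := mulc_lt (f % 256 % 16) (f' % 256 % 16)
      have l2 := mulc_lt (f % 256 / 16) (f' % 256 / 16)
      have l3 : mulG (f % 256) (f' % 256) < 256 := by unfold mulG; omega
      have e1 : (mulG (f % 256) (f' % 256) + 256 * (f' / 256)) % 256 =
        mulG (f % 256) (f' % 256) := by omega
      have e2 : (mulG (f % 256) (f' % 256) + 256 * (f' / 256)) / 256 = f' / 256 := by omega
      simp only [φ, Function.comp, Nat.add_one_ne_zero, if_false, Nat.add_sub_cancel, e1, e2,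
        el_mul c1 c2, mul_assoc]
    · split_ifs <;> simp [φ]

theorem free1 (g : G) (b : B1) (h0 : 0 < deg1 b) (h : g • b = b) : g = 1 := by
  cases b with
  | emp => exact absurd h0 (lt_irrefl _)
  | cell a k => simpa using h

/-- The representation on the cube complex. -/
noncomputable def rho3 : Representation F G (Finset U3 →₀ F) := (perm H (Finset U3)).comp piG

/-- The explicit chain map. -/
noncomputable def phiT : B1 → (Finset U3 →₀ F)
  | .emp => single ∅ 1
  | .cell g k => rho3 g ((cel k).map fun m => single (dec3 m) 1).sum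

theorem phiT_cell (g : G) (k : ℕ) :
    phiT (.cell g k) = rho3 g ((cel k).map fun m => single (dec3 m) 1).sum := rfl

theorem rho3_empty (g : G) : rho3 g (single ∅ 1) = single ∅ 1 := by
  simp [rho3, perm_apply]

theorem phiT_smul (g : G) (b : B1) : phiT (g • b) = rho3 g (phiT b) := by
  cases b with
  | emp => exact (rho3_empty g).symm
  | cell a k => simp [phiT]

theorem dP_rho3 (g : G) (x : Finset U3 →₀ F) : dP pr3 (rho3 g x) = rho3 g (dP pr3 x) :=
  dP_perm pr3 pr3_smul _ _

theorem rho3_mem (g : G) {n : ℕ} {x : Finset U3 →₀ F} (h : x ∈ Car pr3 Finset.univ n) :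
    rho3 g x ∈ Car pr3 Finset.univ n :=
  Car_mono pr3 (Finset.subset_univ _) n (Car_smul pr3 pr3_smul (piG g) h)

theorem phiT_mem (b : B1) (h : Adm1 b) : phiT b ∈ Car pr3 Finset.univ (deg1 b) := by
  cases b with
  | emp => exact single_mem_supported F _ ⟨Or.inl rfl, Finset.subset_univ _, by simp [degP, deg1]⟩
  | cell g k =>
    refine rho3_mem g (list_sum_mem fun x hx => ?_)
    obtain ⟨m, hm, rfl⟩ := List.mem_map.1 hx
    have := (okK_spec h).2.2.2.2.1 m hm
    refine single_mem_supported F _ ⟨Or.inr (valid_dec3 this.1), Finset.subset_univ _, ?_⟩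
    rw [degP_dec3 this.1, this.2]
    rfl

theorem dP_phiT (b : B1) (h : Adm1 b) : dP pr3 (phiT b) = lin phiT (bd1 b) := by
  cases b with
  | emp => simp [phiT, bd1, bdP_empty]
  | cell g k =>
    obtain ⟨-, -, h1, -, h2, h3⟩ := okK_spec h
    have h4 := sum_togL (fun m => single (dec3 m) (1 : F)) (cc k)
    rw [h3, cc, List.map_append, List.sum_append, List.map_append, List.sum_append, sum_flatMap,
      sum_flatMap, List.map_nil, List.sum_nil] at h4
    have h5 := congrArg (rho3 g) h4
    rw [map_zero, map_add, eq_comm, add_eq_zero_iff_eq_neg, neg_eq_of_add_eq_zero_left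
      (add_self' _)] at h5
    rw [lin_bd1, phiT_cell, dP_rho3, map_list_sum, List.map_map]
    refine Eq.trans (congrArg (rho3 g) (congrArg List.sum (List.map_congr_left fun m hm => ?_)))
      (h5.trans ?_)
    · rw [← bdP_dec3 (h2 m hm).1]
      exact dP_single _ _
    · rw [map_add, map_list_sum, List.map_map]
      refine congrArg₂ (· + ·) (congrArg List.sum (List.map_congr_left fun f hf => ?_)) ?_
      · simp only [Function.comp, phiT, map_mul, Module.End.mul_apply]
        congr 1
        rw [map_list_sum, List.map_map, List.map_map]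
        refine congrArg List.sum (List.map_congr_left fun m _ => ?_)
        simp only [Function.comp, ← smul_dec3 (h1 f hf).1]
        simp [rho3, perm_apply]
      · split_ifs
        · simp [dec3_zero, rho3_empty, phiT]
        · simp

theorem rho3_univ (g : G) (x : Finset U3 →₀ F) : rho3 g x Finset.univ = x Finset.univ := by
  have := mapDomain_apply (f := fun P : Finset U3 => piG g • P) (MulAction.injective _) x
    Finset.univ
  rwa [Finset.smul_finset_univ] at this

theorem sum_R6 {D : Type} [AddCommGroup D] [Module F D] (h : B1 → D)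
    (hG : ∀ (g : G) b, Adm1 b → deg1 b ≤ 6 → h (g • b) = h b) :
    (R6.map fun k => lin h (bd1 (.cell 1 k))).sum = 0 := by
  have h1 := sum_togL (fun k => h (.cell 1 k)) (R6.flatMap fun k => (fcs k).map (· / 256))
  rw [ok_R6.2.1, sum_flatMap] at h1
  refine Eq.trans (congrArg List.sum (List.map_congr_left fun k hk => ?_)) h1.symm
  have h2 := List.all_eq_true.1 ok_R6.1 k hk
  simp only [Bool.and_eq_true, Nat.ble_eq, Nat.beq_eq] at h2
  rw [lin_bd1, if_neg (by omega), add_zero, List.map_map]
  refine congrArg List.sum (List.map_congr_left fun f hf => ?_)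
  have h3 := (okK_spec (k := k) (by omega)).2.2.1 f hf
  have := hG (el (f % 256)) (.cell 1 (f / 256)) h3.2.1 (by rw [deg1_cell]; omega)
  simpa using this

theorem adm_R6 {k : ℕ} (hk : k ∈ R6) : Adm1 (.cell 1 k) ∧ deg1 (.cell 1 k) = 7 := by
  have h2 := List.all_eq_true.1 ok_R6.1 k hk
  simp only [Bool.and_eq_true, Nat.ble_eq, Nat.beq_eq] at h2
  exact ⟨by unfold Adm1; omega, h2.2⟩

theorem invariant (χ : B1 → (Finset U3 →₀ F))
    (hG : ∀ (g : G) b, Adm1 b → χ (g • b) = rho3 g (χ b))
    (hd : ∀ b, Adm1 b → dP pr3 (χ b) = lin χ (bd1 b))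
    (hm : ∀ b, Adm1 b → χ b ∈ Car pr3 Finset.univ (deg1 b)) (h0 : χ .emp = single ∅ 1) :
    (R6.map fun k => χ (.cell 1 k) Finset.univ).sum = 1 := by
  obtain ⟨h, hh⟩ := carrier rho3 (dP pr3) dP_rho3 Adm1 deg1 bd1 adm1_smul
    (fun g b _ => deg1_smul g b)
    (fun b hb b' hb' => ⟨(bd1_adm b hb b' hb').1, by have := (bd1_adm b hb b' hb').2; omega⟩)
    (fun g b _ => bd1_smul g b) bd1_bd1
    (fun g b _ h0 h x => by rw [free1 g b h0 h, map_one]; rfl)
    (fun b => χ b + phiT b) (fun g b hb => by rw [hG g b hb, phiT_smul, map_add])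
    (fun b hb => by rw [map_add, hd b hb, dP_phiT b hb, lin_add])
    (fun b => Car pr3 Finset.univ (deg1 b + 1)) (fun b => Car pr3 Finset.univ (deg1 b))
    (fun g b x _ hx => by rw [deg1_smul]; exact rho3_mem g hx)
    (fun b hb => Submodule.add_mem _ (hm b hb) (phiT_mem b hb))
    (fun b hb b' hb' => by rw [(bd1_adm b hb b' hb').2])
    (fun b _ _ z hz hdz => Car_acyclic pr3 _ _ (fun a => ⟨a, Finset.mem_univ _, rfl⟩) z hz hdz)
    (fun _ => 0) (fun b hb h1 => by
      rw [deg1_eq_zero hb h1, h0]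
      exact ⟨Submodule.zero_mem _, by rw [map_zero]; exact (add_self' _).symm,
        fun g => (map_zero _).symm⟩) 7
  have h1 := sum_R6 (fun b => h b Finset.univ) fun g b hb hb' => by
    rw [(hh b hb (by omega)).2.2.1, rho3_univ]
  have h2 : (R6.map fun k => phiT (.cell 1 k) Finset.univ).sum = 1 := by
    have h3 := sum_togL (fun m => (single (dec3 m) (1 : F)) Finset.univ) (R6.flatMap cel)
    have h4 : dec3 4095 = Finset.univ := by decide +kernel
    rw [ok_R6.2.2, sum_flatMap, List.map_singleton, List.sum_singleton, h4, single_eq_same] at h3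
    refine Eq.trans (congrArg List.sum (List.map_congr_left fun k _ => ?_)) h3.symm
    rw [phiT_cell, rho3_univ, ← lapply_apply (R := F), map_list_sum, List.map_map]
    rfl
  rw [← h2, ← add_zero (List.sum (R6.map fun k => phiT _ _)), ← h1, ← List.sum_map_add]
  refine congrArg List.sum (List.map_congr_left fun k hk => ?_)
  have h3 := congrArg (lapply (R := F) Finset.univ) (hh _ (adm_R6 hk).1 (adm_R6 hk).2.le).2.1
  rw [lapply_apply, dP_apply_univ, map_add, map_add, map_lin] at h3
  simp only [lapply_apply] at h3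
  have h4 := add_self' (χ (.cell 1 k) Finset.univ)
  linear_combination h4 + h3

end Vale.Agent.P052
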