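import Vale.Agent.P052.Carrier

/-! The finite combinatorics: a checker for clause derivations and its soundness. -/

namespace Vale.Agent.P052

open Finset

/-- The colours. -/
abbrev Col : Type := Fin 10

/-- Constraints on the family of faces. -/
structure Nerve (N : Finset Col → Prop) : Prop where
  down : ∀ P Q, P ⊆ Q → N Q → N P
  f1 : ∀ P, N P → P.card ≤ 4
  f2 : ∀ P Q, N P → N Q → (P ∪ Q).card ≤ 7
  f3 : ∀ P Q R, N P → N Q → N R → P ∪ Q ∪ R ≠ univ
  h1 : ∀ S T, N S → N T → S.card = 4 → (S ∪ T).card = 7 → ∀ e f, e ∉ S ∪ T → f ∉ S ∪ T →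
    e ≠ f → ∃ z ∈ T, N {e, f, z}

/-- Four nonempty pairwise disjoint sets with union `W`. -/
structure Part (P Q R S W : Finset Col) : Prop where
  n0 : P.Nonempty
  n1 : Q.Nonempty
  n2 : R.Nonempty
  n3 : S.Nonempty
  d01 : Disjoint P Q
  d02 : Disjoint P R
  d03 : Disjoint P S
  d12 : Disjoint Q R
  d13 : Disjoint Q S
  d23 : Disjoint R S
  un : P ∪ Q ∪ R ∪ S = W

/-- A symmetric top-dimensional cycle. -/
structure Cyc (N : Finset Col → Prop)
    (a : Finset Col → Finset Col → Finset Col → Finset Col → F) : Prop where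
  supp : ∀ P Q R S, a P Q R S ≠ 0 → N P ∧ N Q ∧ N R ∧ N S
  sym1 : ∀ P Q R S, a P Q R S = a Q P R S
  sym2 : ∀ P Q R S, a P Q R S = a R S P Q
  cyc : ∀ k P Q R S, Part P Q R S (univ.erase k) →
    a (insert k P) Q R S + a P (insert k Q) R S + a P Q (insert k R) S + a P Q R (insert k S) = 0

/-- The set of colours of a bit mask. -/
def decM (m : ℕ) : Finset Col := univ.filter fun c => m.testBit c.val

theorem mem_decM (m : ℕ) (c : Col) : c ∈ decM m ↔ m.testBit c.val := by simp [decM]

theorem decM_or (a b : ℕ) : decM (a ||| b) = decM a ∪ decM b := by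
  ext c
  simp [mem_decM]

theorem decM_disj {a b : ℕ} (h : a &&& b = 0) : Disjoint (decM a) (decM b) := by
  rw [Finset.disjoint_left]
  intro c h1 h2
  rw [mem_decM] at h1 h2
  have := congrArg (fun x => Nat.testBit x c.val) h
  simp [h1, h2] at this

theorem decM_sub {a b : ℕ} (h : a &&& b = a) : decM a ⊆ decM b := by
  intro c h1
  rw [mem_decM] at h1 ⊢
  have := congrArg (fun x => Nat.testBit x c.val) h
  simpa [h1] using this

theorem decM_pow (k : Col) : decM (2 ^ k.val) = {k} := by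
  ext c
  simp [mem_decM, Nat.testBit_two_pow, Fin.ext_iff, eq_comm]

theorem decM_full : decM 1023 = univ := by decide

/-- Number of bits of a ten bit number. -/
def pop (m : ℕ) : ℕ :=
  (112004398439102515831086157106144944400 >>> (4 * (m % 32))) % 16 +
  (112004398439102515831086157106144944400 >>> (4 * (m / 32))) % 16

theorem card_decM : ∀ m < 1024, (decM m).card = pop m := by decide +kernel

theorem decM_nonempty {m : ℕ} (h : m < 1024) (h' : pop m ≠ 0) : (decM m).Nonempty := by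
  rw [← Finset.card_pos, card_decM m h]
  omega

/-- Canonical code of a cell. -/
def canon2 (a b c d : ℕ) : ℕ :=
  cond (Nat.ble a c) (a + 1024 * (b + 1024 * (c + 1024 * d))) (c + 1024 * (d + 1024 * (a + 1024 * b)))

/-- Canonical code of a cell. -/
def canon1 (a b c d : ℕ) : ℕ := cond (Nat.ble c d) (canon2 a b c d) (canon2 a b d c)

/-- Canonical code of a cell. -/
def canon (a b c d : ℕ) : ℕ := cond (Nat.ble a b) (canon1 a b c d) (canon1 b a c d)

/-- Strict application. -/
noncomputable def force {α : Type} (x : ℕ) (f : ℕ → α) : α :=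
  Nat.rec (f 0) (fun n _ => f n.succ) x

theorem force_eq {α : Type} (x : ℕ) (f : ℕ → α) : force x f = f x := by cases x <;> rfl

/-- Binary trees of numbers. -/
inductive Tr : Type
  | leaf : ℕ → Tr
  | node : Tr → Tr → Tr

/-- Lookup in a tree. -/
noncomputable def Tr.get (t : Tr) : ℕ → ℕ :=
  Tr.rec (fun x _ => x) (fun _ _ l r i => Bool.rec (r (i / 2)) (l (i / 2)) (Nat.beq (i % 2) 0)) t

/-- Membership test. -/
noncomputable def memL (x : ℕ) (l : List ℕ) : Bool :=
  List.rec false (fun y _ ih => Bool.rec ih true (Nat.beq x y)) l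

theorem memL_iff (x : ℕ) (l : List ℕ) : memL x l = true ↔ x ∈ l := by
  induction l with
  | nil => simp [memL]
  | cons y l ih =>
    have : memL x (y :: l) = Bool.rec (memL x l) true (Nat.beq x y) := rfl
    rw [this, List.mem_cons, ← ih]
    cases h : Nat.beq x y
    · simp [Nat.ne_of_beq_eq_false h]
    · simp [Nat.eq_of_beq_eq_true h]

/-- Size vectors of cells known to have coefficient zero. -/
noncomputable def dead (Z : List ℕ) (a b c d : ℕ) : Bool :=
  Nat.ble 5 a || Nat.ble 5 b || Nat.ble 5 c || Nat.ble 5 d || Nat.ble 8 (a + b) ||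
    Nat.ble 8 (a + c) || Nat.ble 8 (a + d) || Nat.ble 8 (b + c) || Nat.ble 8 (b + d) ||
    Nat.ble 8 (c + d) || memL (a + 8 * (b + 8 * (c + 8 * d))) Z

/-- Test for a partition. -/
def partB (a b c d w : ℕ) : Bool :=
  Nat.beq (a ||| b ||| c ||| d) w && Nat.beq (a &&& b) 0 && Nat.beq (a &&& c) 0 &&
    Nat.beq (a &&& d) 0 && Nat.beq (b &&& c) 0 && Nat.beq (b &&& d) 0 && Nat.beq (c &&& d) 0 &&
    Nat.ble 1 (pop a) && Nat.ble 1 (pop b) && Nat.ble 1 (pop c) && Nat.ble 1 (pop d)

/-- One term of a cycle condition. -/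
noncomputable def term (Z : List ℕ) (p a b c d : ℕ) (rest : List ℕ) : List ℕ :=
  cond (Nat.ble p 1) ((4 * canon a b c d + 2 + p) :: rest)
    (cond (dead Z (pop a) (pop b) (pop c) (pop d)) rest (0 :: 1 :: rest))

/-- The clause of a cycle condition. -/
noncomputable def clC (Z : List ℕ) (a b c d k p : ℕ) : List ℕ :=
  cond (Nat.ble k 9 && partB a b c d (1023 - 2 ^ k) &&
      Nat.beq ((p % 4 + p / 4 % 4 + p / 16 % 4 + p / 64 % 4) % 2) 1 &&
      Nat.ble (p % 4) 2 && Nat.ble (p / 4 % 4) 2 && Nat.ble (p / 16 % 4) 2 && Nat.ble (p / 64 % 4) 2)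
    (term Z (p % 4) (a ||| 2 ^ k) b c d (term Z (p / 4 % 4) a (b ||| 2 ^ k) c d
      (term Z (p / 16 % 4) a b (c ||| 2 ^ k) d (term Z (p / 64 % 4) a b c (d ||| 2 ^ k) []))))
    [0, 1]

/-- The clause of the triangle condition. -/
noncomputable def clH (a b e f : ℕ) : List ℕ :=
  cond (Nat.beq (pop a) 4 && Nat.beq (pop (a ||| b)) 7 && Nat.ble e 9 && Nat.ble f 9 &&
      Nat.beq ((a ||| b) &&& 2 ^ e) 0 && Nat.beq ((a ||| b) &&& 2 ^ f) 0 && !(Nat.beq e f))
    ((4 * a + 1) :: (4 * b + 1) ::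
      ((List.range 10).filter fun z => b.testBit z).map fun z => 4 * (2 ^ e ||| 2 ^ f ||| 2 ^ z))
    [0, 1]

/-- The clause described by a hint with tag `t`, four masks and an extra number. -/
noncomputable def clauseT (db : ℕ → List ℕ) (Z : List ℕ) (t x a b c d r : ℕ) : List ℕ :=
  cond (Nat.beq t 0) (db x)
  (cond (Nat.beq t 1) (clC Z a b c d (r % 16) (r / 16))
  (cond (Nat.beq t 2) [4 * canon a b c d + 3, 4 * a]
  (cond (Nat.beq t 3) (cond (Nat.beq (a &&& b) a) [4 * b + 1, 4 * a] [0, 1])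
  (cond (Nat.beq t 4) (cond (Nat.ble 8 (pop (a ||| b))) [4 * a + 1, 4 * b + 1] [0, 1])
  (cond (Nat.beq t 5) (cond (Nat.beq (a ||| b ||| c) 1023) [4 * a + 1, 4 * b + 1, 4 * c + 1] [0, 1])
  (cond (Nat.beq t 6) (clH a b c d)
  (cond (partB a b c d 1023 && dead Z (pop a) (pop b) (pop c) (pop d)) [4 * canon a b c d + 3]
    [0, 1])))))))

/-- The clause described by a hint. -/
noncomputable def clauseOf (db : ℕ → List ℕ) (Z : List ℕ) (h : ℕ) : List ℕ :=
  clauseT db Z (h % 8) (h / 8) (h / 8 % 1024) (h / 8192 % 1024) (h / 8388608 % 1024)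
    (h / 8589934592 % 1024) (h / 8796093022208)

/-- Literals not yet false. -/
noncomputable def remL (asg : List ℕ) (C : List ℕ) : List ℕ :=
  List.rec [] (fun l _ ih => force l fun l => Bool.rec (l :: ih) ih (memL l asg)) C

/-- Unit propagation along the hints. -/
noncomputable def rup (db : ℕ → List ℕ) (Z : List ℕ) (fuel : ℕ) : List ℕ → ℕ → Bool :=
  Nat.rec (fun _ _ => false) (fun _ ih asg H => force (H % 72057594037927936) fun h =>
    List.casesOn (remL asg (clauseOf db Z h)) true (fun l t =>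
      List.casesOn t (force (l + 1 - 2 * (l % 2)) fun l' => force (H / 72057594037927936) fun H' =>
        ih (l' :: asg) H') (fun _ _ => false))) fuel

/-- Unpacking a clause. -/
noncomputable def unpack (fuel : ℕ) : ℕ → List ℕ → List ℕ :=
  Nat.rec (fun _ acc => acc) (fun _ ih x acc => Bool.rec (force (x % 8796093022208) fun l =>
    force (x / 8796093022208) fun x' => ih x' (l :: acc)) acc (Nat.beq x 0)) fuel

/-- The clause with a given number. -/
noncomputable def clauseNo (T : Tr) (i : ℕ) : List ℕ := unpack 100 (T.get i) []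

/-- Checking lines of a derivation. -/
noncomputable def check (Z : List ℕ) (T : Tr) (lines : List ℕ) : ℕ → Bool :=
  List.rec (fun _ => true) (fun H _ ih i =>
    rup (fun x => cond (Nat.blt x i) (clauseNo T x) [0, 1]) Z 1000 (clauseNo T i) H &&
      force (i + 1) ih) lines

section sound

variable (N : Finset Col → Prop) (a : Finset Col → Finset Col → Finset Col → Finset Col → F)

/-- The meaning of a variable. -/
def val (v : ℕ) : Prop :=
  if v % 2 = 0 then N (decM (v / 2)) else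
    a (decM (v / 2 % 1024)) (decM (v / 2 / 1024 % 1024)) (decM (v / 2 / 1024 / 1024 % 1024))
      (decM (v / 2 / 1024 / 1024 / 1024)) ≠ 0

/-- The meaning of a literal. -/
def holds (l : ℕ) : Prop := if l % 2 = 0 then val N a (l / 2) else ¬ val N a (l / 2)

/-- The meaning of a clause. -/
def Sat (C : List ℕ) : Prop := ∃ l ∈ C, holds N a l

/-- Cells with dead size vector have coefficient zero. -/
def HZ (Z : List ℕ) : Prop := ∀ P Q R S, Part P Q R S univ →
  dead Z P.card Q.card R.card S.card = true → a P Q R S = 0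

variable {N a}

theorem sat_taut (C : List ℕ) : Sat N a (0 :: 1 :: C) := by
  by_cases h : val N a 0
  · exact ⟨0, by simp, by simpa [holds] using h⟩
  · exact ⟨1, by simp, by simpa [holds] using h⟩

theorem holds_N (m : ℕ) : holds N a (4 * m) ↔ N (decM m) := by
  have h1 : 4 * m % 2 = 0 := by omega
  have h2 : 4 * m / 2 % 2 = 0 := by omega
  have h3 : 4 * m / 2 / 2 = m := by omega
  simp only [holds, val, h1, h2, h3, if_true]

theorem holds_nN (m : ℕ) : holds N a (4 * m + 1) ↔ ¬ N (decM m) := by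
  have h1 : ¬ (4 * m + 1) % 2 = 0 := by omega
  have h2 : (4 * m + 1) / 2 % 2 = 0 := by omega
  have h3 : (4 * m + 1) / 2 / 2 = m := by omega
  simp only [holds, val, h1, h2, h3, if_true, if_false]

theorem val_code {x y z w : ℕ} (hx : x < 1024) (hy : y < 1024) (hz : z < 1024) :
    val N a (2 * (x + 1024 * (y + 1024 * (z + 1024 * w))) + 1) ↔
      a (decM x) (decM y) (decM z) (decM w) ≠ 0 := by
  have h0 : ¬ (2 * (x + 1024 * (y + 1024 * (z + 1024 * w))) + 1) % 2 = 0 := by omega
  have h1 : (2 * (x + 1024 * (y + 1024 * (z + 1024 * w))) + 1) / 2 % 1024 = x := by omega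
  have h2 : (2 * (x + 1024 * (y + 1024 * (z + 1024 * w))) + 1) / 2 / 1024 % 1024 = y := by omega
  have h3 : (2 * (x + 1024 * (y + 1024 * (z + 1024 * w))) + 1) / 2 / 1024 / 1024 % 1024 = z := by
    omega
  have h4 : (2 * (x + 1024 * (y + 1024 * (z + 1024 * w))) + 1) / 2 / 1024 / 1024 / 1024 = w := by
    omega
  simp only [val, h0, h1, h2, h3, h4, if_false]

theorem val_canon (hC : Cyc N a) {x y z w : ℕ} (hx : x < 1024) (hy : y < 1024) (hz : z < 1024)
    (hw : w < 1024) :
    val N a (2 * canon x y z w + 1) ↔ a (decM x) (decM y) (decM z) (decM w) ≠ 0 := by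
  have h2 : ∀ {x y z w : ℕ}, x < 1024 → y < 1024 → z < 1024 → w < 1024 →
      (val N a (2 * canon2 x y z w + 1) ↔ a (decM x) (decM y) (decM z) (decM w) ≠ 0) := by
    intro x y z w hx hy hz hw
    unfold canon2
    cases Nat.ble x z
    · rw [cond_false, val_code hz hw hx, hC.sym2]
    · rw [cond_true, val_code hx hy hz]
  have h1 : ∀ {x y z w : ℕ}, x < 1024 → y < 1024 → z < 1024 → w < 1024 →
      (val N a (2 * canon1 x y z w + 1) ↔ a (decM x) (decM y) (decM z) (decM w) ≠ 0) := by
    intro x y z w hx hy hz hw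
    unfold canon1
    cases Nat.ble z w
    · rw [cond_false, h2 hx hy hw hz, hC.sym2, hC.sym1, hC.sym2]
    · rw [cond_true, h2 hx hy hz hw]
  unfold canon
  cases Nat.ble x y
  · rw [cond_false, h1 hy hx hz hw, hC.sym1]
  · rw [cond_true, h1 hx hy hz hw]

theorem holds_A (hC : Cyc N a) {x y z w : ℕ} (hx : x < 1024) (hy : y < 1024) (hz : z < 1024)
    (hw : w < 1024) :
    holds N a (4 * canon x y z w + 2) ↔ a (decM x) (decM y) (decM z) (decM w) ≠ 0 := by
  have h1 : (4 * canon x y z w + 2) % 2 = 0 := by omega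
  have h2 : (4 * canon x y z w + 2) / 2 = 2 * canon x y z w + 1 := by omega
  simp only [holds, h1, h2, if_true, val_canon hC hx hy hz hw]

theorem holds_nA (hC : Cyc N a) {x y z w : ℕ} (hx : x < 1024) (hy : y < 1024) (hz : z < 1024)
    (hw : w < 1024) :
    holds N a (4 * canon x y z w + 3) ↔ a (decM x) (decM y) (decM z) (decM w) = 0 := by
  have h1 : ¬ (4 * canon x y z w + 3) % 2 = 0 := by omega
  have h2 : (4 * canon x y z w + 3) / 2 = 2 * canon x y z w + 1 := by omega
  simp only [holds, h1, h2, if_false, val_canon hC hx hy hz hw, not_not]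

theorem partB_sound {x y z w u : ℕ} (hx : x < 1024) (hy : y < 1024) (hz : z < 1024)
    (hw : w < 1024) (h : partB x y z w u = true) :
    Part (decM x) (decM y) (decM z) (decM w) (decM u) := by
  simp only [partB, Bool.and_eq_true, Nat.beq_eq, Nat.ble_eq] at h
  obtain ⟨⟨⟨⟨⟨⟨⟨⟨⟨⟨h0, h1⟩, h2⟩, h3⟩, h4⟩, h5⟩, h6⟩, h7⟩, h8⟩, h9⟩, h10⟩ := h
  exact ⟨decM_nonempty hx (by omega), decM_nonempty hy (by omega), decM_nonempty hz (by omega),
    decM_nonempty hw (by omega), decM_disj h1, decM_disj h2, decM_disj h3, decM_disj h4,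
    decM_disj h5, decM_disj h6, by rw [← h0, decM_or, decM_or, decM_or]⟩

theorem term_sound (hC : Cyc N a) {Z : List ℕ} (hZ : HZ a Z) {x y z w p : ℕ} (hx : x < 1024)
    (hy : y < 1024) (hz : z < 1024) (hw : w < 1024)
    (hP : Part (decM x) (decM y) (decM z) (decM w) univ) (hp : p ≤ 2) (rest : List ℕ)
    (h : ¬ Sat N a (term Z p x y z w rest)) :
    a (decM x) (decM y) (decM z) (decM w) = (p : F) ∧ ¬ Sat N a rest := by
  unfold term at h
  have hF : ∀ t : F, t ≠ 0 → t = 1 := by decide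
  obtain rfl | rfl | rfl : p = 0 ∨ p = 1 ∨ p = 2 := by omega
  · refine ⟨?_, fun ⟨l, hl, h'⟩ => h ⟨l, List.mem_cons_of_mem _ hl, h'⟩⟩
    by_contra hne
    exact h ⟨_, List.mem_cons_self, (holds_A hC hx hy hz hw).2 (by simpa using hne)⟩
  · refine ⟨?_, fun ⟨l, hl, h'⟩ => h ⟨l, List.mem_cons_of_mem _ hl, h'⟩⟩
    refine hF _ fun h0 => h ⟨_, List.mem_cons_self, (holds_nA hC hx hy hz hw).2 h0⟩
  · cases hd : dead Z (pop x) (pop y) (pop z) (pop w)
    · rw [hd] at h
      exact absurd (sat_taut rest) h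
    · rw [hd] at h
      refine ⟨?_, h⟩
      rw [← card_decM x hx, ← card_decM y hy, ← card_decM z hz, ← card_decM w hw] at hd
      exact hZ _ _ _ _ hP hd

theorem Part.ins {P Q R S : Finset Col} {k : Col} (h : Part P Q R S (univ.erase k)) :
    Part (insert k P) Q R S univ ∧ Part P (insert k Q) R S univ ∧
      Part P Q (insert k R) S univ ∧ Part P Q R (insert k S) univ := by
  have hk : k ∉ P ∪ Q ∪ R ∪ S := by rw [h.un]; simp
  simp only [mem_union, not_or] at hk
  obtain ⟨⟨⟨k0, k1⟩, k2⟩, k3⟩ := hk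
  have hu : insert k (P ∪ Q ∪ R ∪ S) = univ := by rw [h.un]; simp
  refine ⟨⟨by simp, h.n1, h.n2, h.n3, ?_, ?_, ?_, h.d12, h.d13, h.d23, ?_⟩,
    ⟨h.n0, by simp, h.n2, h.n3, ?_, h.d02, h.d03, ?_, ?_, h.d23, ?_⟩,
    ⟨h.n0, h.n1, by simp, h.n3, h.d01, ?_, h.d03, ?_, h.d13, ?_, ?_⟩,
    ⟨h.n0, h.n1, h.n2, by simp, h.d01, h.d02, ?_, h.d12, ?_, ?_, ?_⟩⟩
  all_goals first
    | (rw [← hu]; ext x; simp only [mem_union, mem_insert]; tauto)
    | simp [k0, k1, k2, k3, h.d01, h.d02, h.d03, h.d12, h.d13, h.d23]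

theorem or_pow_lt {x k : ℕ} (hx : x < 1024) (hk : k ≤ 9) : x ||| 2 ^ k < 1024 :=
  Nat.or_lt_two_pow (n := 10) hx (Nat.pow_lt_pow_right (by omega) (by omega))

theorem clC_sound (hC : Cyc N a) {Z : List ℕ} (hZ : HZ a Z) {x y z w : ℕ} (hx : x < 1024)
    (hy : y < 1024) (hz : z < 1024) (hw : w < 1024) (k p : ℕ) : Sat N a (clC Z x y z w k p) := by
  unfold clC
  refine Bool.rec (motive := fun b => _ = b → Sat N a (cond b _ _)) (fun _ => sat_taut [])
    (fun h => ?_) _ rfl
  simp only [Bool.and_eq_true, Nat.beq_eq, Nat.ble_eq] at h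
  obtain ⟨⟨⟨⟨⟨⟨hk, hP⟩, hp⟩, p0⟩, p1⟩, p2⟩, p3⟩ := h
  have hP' := partB_sound hx hy hz hw hP
  let k' : Col := ⟨k, by omega⟩
  have e0 : decM (1023 - 2 ^ k) = univ.erase k' := by
    have : ∀ k : Col, decM (1023 - 2 ^ k.val) = univ.erase k := by decide
    exact this k'
  have e1 : ∀ x, decM (x ||| 2 ^ k) = insert k' (decM x) := by
    intro x
    rw [decM_or, decM_pow k', union_comm]
    rfl
  rw [e0] at hP'
  obtain ⟨q0, q1, q2, q3⟩ := hP'.ins
  rw [← e1] at q0 q1 q2 q3
  by_contra hcon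
  rw [cond_true] at hcon
  obtain ⟨t0, hcon⟩ := term_sound hC hZ (or_pow_lt hx hk) hy hz hw q0 p0 _ hcon
  obtain ⟨t1, hcon⟩ := term_sound hC hZ hx (or_pow_lt hy hk) hz hw q1 p1 _ hcon
  obtain ⟨t2, hcon⟩ := term_sound hC hZ hx hy (or_pow_lt hz hk) hw q2 p2 _ hcon
  obtain ⟨t3, -⟩ := term_sound hC hZ hx hy hz (or_pow_lt hw hk) q3 p3 _ hcon
  have := hC.cyc k' _ _ _ _ hP'
  rw [← e1, ← e1, ← e1, ← e1, t0, t1, t2, t3, ← Nat.cast_add, ← Nat.cast_add, ← Nat.cast_add,
    ZMod.natCast_eq_zero_iff] at this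
  omega

theorem clH_sound (hN : Nerve N) {x y : ℕ} (hx : x < 1024) (hy : y < 1024) (e f : ℕ) :
    Sat N a (clH x y e f) := by
  unfold clH
  refine Bool.rec (motive := fun b => _ = b → Sat N a (cond b _ _)) (fun _ => sat_taut [])
    (fun h => ?_) _ rfl
  simp only [Bool.and_eq_true, Nat.beq_eq, Nat.ble_eq, Bool.not_eq_true'] at h
  obtain ⟨⟨⟨⟨⟨⟨h0, h1⟩, h2⟩, h3⟩, h4⟩, h5⟩, h6⟩ := h
  rw [cond_true]
  by_cases hS : N (decM x)
  swap
  · exact ⟨_, List.mem_cons_self, (holds_nN x).2 hS⟩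
  by_cases hT : N (decM y)
  swap
  · exact ⟨_, List.mem_cons_of_mem _ List.mem_cons_self, (holds_nN y).2 hT⟩
  let e' : Col := ⟨e, by omega⟩
  let f' : Col := ⟨f, by omega⟩
  have hxy : x ||| y < 1024 := Nat.or_lt_two_pow (n := 10) hx hy
  obtain ⟨z, hz, hz'⟩ := hN.h1 _ _ hS hT (by rw [card_decM x hx, h0])
    (by rw [← decM_or, card_decM _ hxy, h1]) e' f'
    (by
      have := decM_disj h4
      rwa [decM_pow e', disjoint_singleton_right, decM_or] at this)
    (by
      have := decM_disj h5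
      rwa [decM_pow f', disjoint_singleton_right, decM_or] at this)
    (fun h => Nat.ne_of_beq_eq_false h6 (congrArg Fin.val h))
  refine ⟨4 * (2 ^ e ||| 2 ^ f ||| 2 ^ z.val), List.mem_cons_of_mem _ (List.mem_cons_of_mem _
    (List.mem_map.2 ⟨z.val, List.mem_filter.2 ⟨List.mem_range.2 z.2, (mem_decM _ _).1 hz⟩, rfl⟩)),
    (holds_N _).2 ?_⟩
  rw [decM_or, decM_or, decM_pow e', decM_pow f', decM_pow z]
  convert hz' using 1
  ext c
  simp

theorem cond_sat {b : Bool} {C : List ℕ} (h : b = true → Sat N a C) :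
    Sat N a (cond b C [0, 1]) := by
  cases b
  · exact sat_taut []
  · exact h rfl

theorem cond_sat' {b : Bool} {C C' : List ℕ} (h : Sat N a C) (h' : Sat N a C') :
    Sat N a (cond b C C') := by
  cases b
  · exact h'
  · exact h

theorem clauseOf_sound (hN : Nerve N) (hC : Cyc N a) {Z : List ℕ} (hZ : HZ a Z)
    {db : ℕ → List ℕ} (hdb : ∀ x, Sat N a (db x)) (h : ℕ) : Sat N a (clauseOf db Z h) := by
  unfold clauseOf
  have hx : h / 8 % 1024 < 1024 := Nat.mod_lt _ (by omega)
  have hy : h / 8192 % 1024 < 1024 := Nat.mod_lt _ (by omega)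
  have hz : h / 8388608 % 1024 < 1024 := Nat.mod_lt _ (by omega)
  have hw : h / 8589934592 % 1024 < 1024 := Nat.mod_lt _ (by omega)
  generalize h / 8 % 1024 = x at *
  generalize h / 8192 % 1024 = y at *
  generalize h / 8388608 % 1024 = z at *
  generalize h / 8589934592 % 1024 = w at *
  unfold clauseT
  refine cond_sat' ?_ (cond_sat' (clC_sound hC hZ hx hy hz hw _ _) (cond_sat' ?_ (cond_sat'
    (cond_sat fun h => ?_) (cond_sat' (cond_sat fun h => ?_) (cond_sat' (cond_sat fun h => ?_)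
    (cond_sat' (clH_sound hN hx hy _ _) (cond_sat fun h => ?_)))))))
  · exact hdb _
  · by_cases h0 : a (decM x) (decM y) (decM z) (decM w) = 0
    · exact ⟨_, by simp, (holds_nA hC hx hy hz hw).2 h0⟩
    · exact ⟨_, by simp, (holds_N x).2 (hC.supp _ _ _ _ h0).1⟩
  · by_cases h0 : N (decM y)
    · exact ⟨_, by simp, (holds_N x).2 (hN.down _ _ (decM_sub (Nat.eq_of_beq_eq_true h)) h0)⟩
    · exact ⟨_, by simp, (holds_nN y).2 h0⟩
  · by_cases h0 : N (decM x)
    · refine ⟨_, by simp, (holds_nN y).2 fun h1 => ?_⟩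
      have := hN.f2 _ _ h0 h1
      rw [← decM_or, card_decM _ (Nat.or_lt_two_pow (n := 10) hx hy)] at this
      have := Nat.le_of_ble_eq_true h
      omega
    · exact ⟨_, by simp, (holds_nN x).2 h0⟩
  · by_cases h0 : N (decM x)
    · by_cases h1 : N (decM y)
      · refine ⟨_, by simp, (holds_nN z).2 fun h2 => hN.f3 _ _ _ h0 h1 h2 ?_⟩
        rw [← decM_or, ← decM_or, Nat.eq_of_beq_eq_true h, decM_full]
      · exact ⟨_, by simp, (holds_nN y).2 h1⟩
    · exact ⟨_, by simp, (holds_nN x).2 h0⟩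
  · rw [Bool.and_eq_true] at h
    refine ⟨_, by simp, (holds_nA hC hx hy hz hw).2 (hZ _ _ _ _ ?_ ?_)⟩
    · rw [← decM_full]
      exact partB_sound hx hy hz hw h.1
    · rw [card_decM x hx, card_decM y hy, card_decM z hz, card_decM w hw]
      exact h.2

theorem remL_sat {asg C : List ℕ} (hasg : ¬ Sat N a asg) (h : Sat N a C) :
    Sat N a (remL asg C) := by
  induction C with
  | nil => exact h
  | cons l C ih =>
    have e : remL asg (l :: C) = Bool.rec (l :: remL asg C) (remL asg C) (memL l asg) :=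
      force_eq l fun l => @Bool.rec (fun _ => List ℕ) (l :: remL asg C) (remL asg C) (memL l asg)
    rw [e]
    obtain ⟨l', hl', hh⟩ := h
    cases hm : memL l asg
    · rcases List.mem_cons.1 hl' with rfl | hl'
      · exact ⟨_, List.mem_cons_self, hh⟩
      · obtain ⟨l'', h1, h2⟩ := ih ⟨l', hl', hh⟩
        exact ⟨l'', List.mem_cons_of_mem _ h1, h2⟩
    · rcases List.mem_cons.1 hl' with rfl | hl'
      · exact absurd ⟨_, (memL_iff _ _).1 hm, hh⟩ hasg
      · exact ih ⟨l', hl', hh⟩

theorem holds_neg {l : ℕ} (h : holds N a l) : ¬ holds N a (l + 1 - 2 * (l % 2)) := by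
  unfold holds at *
  rcases Nat.mod_two_eq_zero_or_one l with h0 | h0
  · have h1 : ¬ (l + 1 - 2 * (l % 2)) % 2 = 0 := by omega
    have h2 : (l + 1 - 2 * (l % 2)) / 2 = l / 2 := by omega
    rw [if_pos h0] at h
    rw [if_neg h1, h2]
    exact not_not.2 h
  · have h1 : (l + 1 - 2 * (l % 2)) % 2 = 0 := by omega
    have h2 : (l + 1 - 2 * (l % 2)) / 2 = l / 2 := by omega
    rw [if_neg (by omega)] at h
    rw [if_pos h1, h2]
    exact h

theorem rup_sound (hN : Nerve N) (hC : Cyc N a) {Z : List ℕ} (hZ : HZ a Z)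
    {db : ℕ → List ℕ} (hdb : ∀ x, Sat N a (db x)) (fuel : ℕ) (asg : List ℕ) (H : ℕ)
    (h : rup db Z fuel asg H = true) : Sat N a asg := by
  induction fuel generalizing asg H with
  | zero => exact absurd h Bool.false_ne_true
  | succ f ih =>
    by_contra hasg
    have e : rup db Z (f + 1) asg H = force (H % 72057594037927936) fun h =>
        List.casesOn (remL asg (clauseOf db Z h)) true (fun l t =>
          List.casesOn t (force (l + 1 - 2 * (l % 2)) fun l' => force (H / 72057594037927936)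
            fun H' => rup db Z f (l' :: asg) H') (fun _ _ => false)) := rfl
    simp only [force_eq] at e
    have hs := remL_sat hasg (clauseOf_sound hN hC hZ hdb (H % 72057594037927936))
    rw [e] at h
    generalize remL asg (clauseOf db Z (H % 72057594037927936)) = r at h hs
    match r, h, hs with
    | [], _, ⟨_, hl, _⟩ => simp at hl
    | [l], h, ⟨l', hl, hh⟩ =>
      have : l' = l := by simpa using hl
      subst this
      obtain ⟨l'', h1, h2⟩ := ih _ _ h
      rcases List.mem_cons.1 h1 with rfl | h1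
      · exact holds_neg hh h2
      · exact hasg ⟨_, h1, h2⟩
    | _ :: _ :: _, h, _ => exact absurd h Bool.false_ne_true

theorem check_sound (hN : Nerve N) (hC : Cyc N a) {Z : List ℕ} (hZ : HZ a Z) (T : Tr)
    (lines : List ℕ) (i : ℕ) (h : check Z T lines i = true)
    (hdb : ∀ x < i, Sat N a (clauseNo T x)) : ∀ x < i + lines.length, Sat N a (clauseNo T x) := by
  induction lines generalizing i with
  | nil => exact hdb
  | cons H lines ih =>
    have e : check Z T (H :: lines) i =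
      (rup (fun x => cond (Nat.blt x i) (clauseNo T x) [0, 1]) Z 1000 (clauseNo T i) H &&
        force (i + 1) (check Z T lines)) := rfl
    rw [e, Bool.and_eq_true, force_eq] at h
    have hs := rup_sound hN hC hZ (fun x => cond_sat fun hx => hdb x (by simpa using hx)) _ _ _ h.1
    intro x hx
    refine ih (i + 1) h.2 (fun y hy => ?_) x (by simp at hx; omega)
    rcases Nat.lt_succ_iff_lt_or_eq.1 hy with hy | rfl
    · exact hdb y hy
    · exact hs

theorem check_append {Z : List ℕ} {T : Tr} {l l' : List ℕ} {i j : ℕ} (h : check Z T l i = true)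
    (h' : check Z T l' j = true) (hj : i + l.length = j) : check Z T (l ++ l') i = true := by
  subst hj
  induction l generalizing i with
  | nil => exact h'
  | cons H l ih =>
    have e : ∀ l, check Z T (H :: l) i =
      (rup (fun x => cond (Nat.blt x i) (clauseNo T x) [0, 1]) Z 1000 (clauseNo T i) H &&
        force (i + 1) (check Z T l)) := fun _ => rfl
    rw [List.cons_append]
    rw [e, Bool.and_eq_true, force_eq] at h ⊢
    exact ⟨h.1, ih h.2 (by simpa [add_assoc, add_comm 1] using h')⟩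

end sound

end Vale.Agent.P052
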