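import Vale.Agent.P052.Phi
import Vale.Agent.P052.Cert

/-! No good colouring of the quaternions with ten colours. -/

namespace Vale.Agent.P052

open Finsupp Pointwise Quaternion

/-- The cell with four given sets of colours. -/
def cellF (P Q R S : Finset Col) : Finset U2 :=
  Finset.univ.filter fun x => x.2 ∈ ![P, Q, R, S] x.1

theorem mem_cellF {P Q R S : Finset Col} {i : Fin 4} {c : Col} :
    (i, c) ∈ cellF P Q R S ↔ c ∈ ![P, Q, R, S] i := by simp [cellF]

theorem fib_cellF (P Q R S : Finset Col) (i : Fin 4) : fib (cellF P Q R S) i = ![P, Q, R, S] i := by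
  ext c
  rw [mem_fib, mem_cellF]

theorem cellF_fib (P : Finset U2) : cellF (fib P 0) (fib P 1) (fib P 2) (fib P 3) = P := by
  ext ⟨i, c⟩
  rw [mem_cellF]
  fin_cases i <;> exact mem_fib

theorem smul_cellF (h : H) {P Q R S P' Q' R' S' : Finset Col}
    (e : ∀ i, ![P', Q', R', S'] (h.1 i) = ![P, Q, R, S] i) :
    h • cellF P Q R S = cellF P' Q' R' S' := by
  ext ⟨i, c⟩
  obtain ⟨i, rfl⟩ := h.1.surjective i
  rw [mem_H_smul, mem_cellF, mem_cellF, e]

theorem cycle_zero {N : Finset Col → Prop} (hN : Nerve N) {A : Finset U2 →₀ F} (hA : A ∈ CH N 7)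
    (hd : dP Prod.fst A = 0) (hH : ∀ h : H, perm H _ h A = A) : A = 0 := by
  have hinv : ∀ (h : H) P, A (h • P) = A P := fun h P => by
    conv_lhs => rw [← hH h]
    exact mapDomain_apply (f := fun P : Finset U2 => h • P) (MulAction.injective _) A P
  have hC : Cyc N fun P Q R S => A (cellF P Q R S) := by
    refine ⟨fun P Q R S h => ?_, fun P Q R S => ?_, fun P Q R S => ?_, fun k P Q R S h => ?_⟩
    · have h1 := (hA (mem_support_iff.2 h)).2.1
      simp only [fib_cellF] at h1
      exact ⟨h1 0, h1 1, h1 2, h1 3⟩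
    · have h1 : Equiv.swap 0 1 ∈ H := by
        intro i j
        revert i j
        decide
      rw [← smul_cellF ⟨_, h1⟩ (P := P) (Q := Q) (R := R) (S := S) (P' := Q) (Q' := P) (R' := R)
        (S' := S) fun i => by fin_cases i <;> rfl, hinv]
    · have h1 : Equiv.swap 0 2 * Equiv.swap 1 3 ∈ H := by
        intro i j
        revert i j
        decide
      rw [← smul_cellF ⟨_, h1⟩ (P := P) (Q := Q) (R := R) (S := S) (P' := R) (Q' := S) (R' := P)
        (S' := Q) fun i => by fin_cases i <;> rfl, hinv]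
    · have hv : Valid Prod.fst (cellF P Q R S) := by
        rintro ⟨i, c⟩
        have : (![P, Q, R, S] i).Nonempty := by
          fin_cases i
          exacts [h.n0, h.n1, h.n2, h.n3]
        obtain ⟨c', hc'⟩ := this
        exact ⟨(i, c'), mem_cellF.2 hc', rfl⟩
      have hk : k ∉ P ∪ Q ∪ R ∪ S := by rw [h.un]; simp
      simp only [Finset.mem_union, not_or] at hk
      obtain ⟨⟨⟨k0, k1⟩, k2⟩, k3⟩ := hk
      have h1 := dP_apply Prod.fst A hv (by
        obtain ⟨b, hb, -⟩ := hv (0, 0)
        exact Finset.ne_empty_of_mem hb)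
      rw [hd, Fintype.sum_prod_type_right, Finset.sum_eq_single k, Fin.sum_univ_four] at h1
      · rw [if_neg (by simpa [mem_cellF] using k0), if_neg (by simpa [mem_cellF] using k1),
          if_neg (by simpa [mem_cellF] using k2), if_neg (by simpa [mem_cellF] using k3)] at h1
        refine Eq.trans ?_ h1.symm
        congr 4 <;> ext ⟨i, c⟩ <;> rw [Finset.mem_insert, mem_cellF, mem_cellF] <;>
          fin_cases i <;> simp
      · intro c _ hc
        refine Finset.sum_eq_zero fun i _ => ?_
        split_ifs with hi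
        · rfl
        by_contra hne
        have h2 := (hA (mem_support_iff.2 hne)).1.2
        have h3 : c ∈ P ∪ Q ∪ R ∪ S := by rw [h.un]; simp [hc]
        obtain ⟨j, hj⟩ : ∃ j, (j, c) ∈ cellF P Q R S := by
          simp only [Finset.mem_union] at h3
          rcases h3 with ((h3 | h3) | h3) | h3
          exacts [⟨0, mem_cellF.2 h3⟩, ⟨1, mem_cellF.2 h3⟩, ⟨2, mem_cellF.2 h3⟩, ⟨3, mem_cellF.2 h3⟩]
        exact hi (h2 i j c (Finset.mem_insert_self _ _) (Finset.mem_insert_of_mem hj) ▸ hj)
      · simp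
  ext P
  by_contra hne
  obtain ⟨⟨h1, h2⟩, -, h3⟩ := hA (mem_support_iff.2 hne)
  have hP : P ≠ ∅ := fun h => by simp [h, degP] at h3
  have hv := h1.resolve_left hP
  have h4 : (Finset.univ.image (Prod.fst : U2 → Fin 4)).card = 4 := by decide +kernel
  have h5 : (P.image Prod.snd).card = 10 := by
    rw [Finset.card_image_of_injOn]
    · rw [degP, if_neg hP, h4] at h3
      omega
    · rintro ⟨i, c⟩ hi ⟨j, c'⟩ hj rfl
      rw [h2 i j c hi hj]
  have hn : ∀ i, (fib P i).Nonempty := fun i => by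
    obtain ⟨⟨j, c⟩, hb, rfl⟩ := hv (i, 0)
    exact ⟨c, mem_fib.2 hb⟩
  have hdj : ∀ i j, i ≠ j → Disjoint (fib P i) (fib P j) := fun i j hij =>
    Finset.disjoint_left.2 fun c hi hj => hij (h2 i j c (mem_fib.1 hi) (mem_fib.1 hj))
  refine hne ?_
  rw [← cellF_fib P]
  refine cyc_zero hN hC ⟨hn 0, hn 1, hn 2, hn 3, hdj _ _ (by decide), hdj _ _ (by decide),
    hdj _ _ (by decide), hdj _ _ (by decide), hdj _ _ (by decide), hdj _ _ (by decide), ?_⟩
  refine Finset.eq_univ_of_forall fun c => ?_
  have : c ∈ P.image Prod.snd := by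
    rw [Finset.eq_univ_of_card _ h5]
    exact Finset.mem_univ _
  obtain ⟨⟨i, c⟩, hi, rfl⟩ := Finset.mem_image.1 this
  rw [← mem_fib] at hi
  fin_cases i <;> simp_all

theorem no_good (col : ℍ[ℝ] → Col) (ε : ℝ) : ¬ Good col ε := by
  intro h
  obtain ⟨Φ, a0, a1⟩ := exists_Phi h
  obtain ⟨ψ, b0, b1⟩ := exists_psi
  have hs := fun b (hb : Adm1 b) P (hP : P ∈ (Φ b).support) =>
    b1 P ((a1 b hb).1 hP).1 (by rw [((a1 b hb).1 hP).2.2]; exact deg1_le b hb)
  have key := invariant (fun b => lin ψ (Φ b))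
    (fun g b hb => by
      rw [(a1 b hb).2.2, perm_apply, lin_mapDomain, map_lin]
      exact lin_congr fun P hP => (hs b hb P hP).2.2 _)
    (fun b hb => by
      rw [map_lin, lin_congr fun P hP => (hs b hb P hP).2.1, ← map_lin (lin ψ) (bdP Prod.fst),
        ← map_lin, ← (a1 b hb).2.1]
      rfl)
    (fun b hb => lin_mem fun P hP => ((a1 b hb).1 hP).2.2 ▸ (hs b hb P hP).1)
    (by simp only [a0, lin_single, b0])
  let A : Finset U2 →₀ F := (R6.map fun k => Φ (.cell 1 k)).sum
  have hA : A ∈ CH (Miss col) 7 := list_sum_mem fun x hx => by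
    obtain ⟨k, hk, rfl⟩ := List.mem_map.1 hx
    exact (adm_R6 hk).2 ▸ (a1 _ (adm_R6 hk).1).1
  let Nm : (Finset U2 →₀ F) →ₗ[F] (Finset U2 →₀ F) := ∑ g : H, perm H (Finset U2) g
  have hNm : ∀ x, Nm x = ∑ g : H, perm H (Finset U2) g x := fun x => LinearMap.sum_apply _ _ _
  have h1 : Nm A = 0 := by
    refine cycle_zero (h.nerve finrank_eq_four) ?_ ?_ fun g => ?_
    · rw [hNm]
      refine Submodule.sum_mem _ fun g _ => map_mem_supported _ (fun P hP => ?_) hA
      rw [perm_apply, mapDomain_single]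
      refine single_mem_supported F _ ⟨⟨admP_smul _ fst_smul g hP.1.1, hP.1.2.smul g⟩,
        fun i => ?_, (degP_smul _ g P).trans hP.2.2⟩
      obtain ⟨i, rfl⟩ := g.1.surjective i
      have : fib (g • P) (g.1 i) = fib P i := by
        ext c
        rw [mem_fib, mem_fib, mem_H_smul]
      exact this ▸ hP.2.1 i
    · have h2 : dP Prod.fst (Nm A) = Nm (dP Prod.fst A) := by
        rw [hNm, hNm, map_sum]
        exact Finset.sum_congr rfl fun g _ => dP_perm _ fst_smul g A
      rw [h2, ← sum_R6 (fun b => Nm (Φ b)) fun g b hb _ => ?_]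
      · rw [map_list_sum, map_list_sum, List.map_map, List.map_map]
        refine congrArg List.sum (List.map_congr_left fun k hk => ?_)
        simp only [Function.comp]
        rw [(a1 _ (adm_R6 hk).1).2.1, map_lin]
      · rw [(a1 b hb).2.2, hNm, hNm]
        refine Fintype.sum_equiv (Equiv.mulRight (piG g)) _ _ fun g' => ?_
        simp
    · rw [hNm, map_sum]
      refine Fintype.sum_equiv (Equiv.mulLeft g) _ _ fun g' => ?_
      simp
  have h2 := norm_zero (G := H) (fun P : Finset U2 => (AdmP Prod.fst P ∧ Disj P) ∧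
      degP Prod.fst P = 7)
    (fun g P hP => free3 g (hP.1.1.resolve_left fun h => by simpa [h, degP] using hP.2) hP.1.2)
    (fun P => ψ P Finset.univ)
    (fun g P hP => by
      have := mapDomain_apply (f := fun P : Finset U3 => g • P) (MulAction.injective _) (ψ P)
        Finset.univ
      rw [Finset.smul_finset_univ] at this
      rw [(b1 P hP.1 hP.2.le).2.2, perm_apply, this])
    A (fun P hP => ⟨(hA hP).1, (hA hP).2.2⟩) (by rw [← hNm, h1])
  rw [map_list_sum, List.map_map] at h2
  refine absurd (h2.symm.trans (Eq.trans (congrArg List.sum (List.map_congr_left fun k _ => ?_))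
    key)) zero_ne_one
  exact (map_lin (lapply Finset.univ) ψ _).symm

end Vale.Agent.P052
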