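import Vale.Agent.P052.Core

/-! The Veronese embedding and the additional points. -/

namespace Vale.Agent.P052

open Quaternion RealInnerProductSpace

/-- Coordinates of the traceless part of the projection onto a line. -/
noncomputable def v9 (x : ℍ[ℝ]) : Fin 9 → ℝ :=
  ![√2 * (x.re * x.imI), √2 * (x.re * x.imJ), √2 * (x.re * x.imK), √2 * (x.imI * x.imJ),
    √2 * (x.imI * x.imK), √2 * (x.imJ * x.imK),
    (x.re ^ 2 + x.imI ^ 2 - x.imJ ^ 2 - x.imK ^ 2) / 2,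
    (x.re ^ 2 - x.imI ^ 2 + x.imJ ^ 2 - x.imK ^ 2) / 2,
    (x.re ^ 2 - x.imI ^ 2 - x.imJ ^ 2 + x.imK ^ 2) / 2]

theorem unit_eq {x : ℍ[ℝ]} (hx : ‖x‖ = 1) : x.re ^ 2 + x.imI ^ 2 + x.imJ ^ 2 + x.imK ^ 2 = 1 := by
  rw [← normSq_def', normSq_eq_norm_mul_self, hx, mul_one]

theorem v9_dist {x y : ℍ[ℝ]} (hx : ‖x‖ = 1) (hy : ‖y‖ = 1) :
    ∑ i, (v9 x i - v9 y i) ^ 2 = 2 - 2 * ⟪x, y⟫ ^ 2 := by
  have h1 := unit_eq hx
  have h2 := unit_eq hy
  have h3 : √2 ^ 2 = 2 := Real.sq_sqrt (by norm_num)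
  simp only [v9, Fin.sum_univ_succ, Matrix.cons_val_zero, Matrix.cons_val_succ, Fin.sum_univ_zero,
    inner_def, re_mul, re_star, imI_star, imJ_star, imK_star, ← mul_sub, mul_pow, h3]
  linear_combination (3 / 4 * (x.re ^ 2 + x.imI ^ 2 + x.imJ ^ 2 + x.imK ^ 2) + 1 / 2 *
    (y.re ^ 2 + y.imI ^ 2 + y.imJ ^ 2 + y.imK ^ 2) + 3 / 4) * h1 +
    (3 / 4 * (y.re ^ 2 + y.imI ^ 2 + y.imJ ^ 2 + y.imK ^ 2) + 5 / 4) * h2

theorem v9_norm {x : ℍ[ℝ]} (hx : ‖x‖ = 1) : ∑ i, v9 x i ^ 2 = 3 / 4 := by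
  have h1 := unit_eq hx
  have h3 : √2 ^ 2 = 2 := Real.sq_sqrt (by norm_num)
  simp only [v9, Fin.sum_univ_succ, Matrix.cons_val_zero, Matrix.cons_val_succ, Fin.sum_univ_zero,
    mul_pow, h3]
  linear_combination (3 / 4 * (x.re ^ 2 + x.imI ^ 2 + x.imJ ^ 2 + x.imK ^ 2) + 3 / 4) * h1

theorem v9_neg (x : ℍ[ℝ]) : v9 (-x) = v9 x := by simp [v9]

/-- The embedding of the projective space. -/
noncomputable def vv (k : ℕ) (x : ℍ[ℝ]) : EuclideanSpace ℝ (Fin (9 + k)) :=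
  WithLp.toLp 2 (Fin.append (v9 x) 0)

/-- The additional points. -/
noncomputable def pp (k : ℕ) (j : Fin k) : EuclideanSpace ℝ (Fin (9 + k)) :=
  WithLp.toLp 2 (Fin.append 0 fun i => 1 / (4 * (√(1 + k / 4) + 1)) + if i = j then 1 else 0)

theorem dist_vv (k : ℕ) {x y : ℍ[ℝ]} (hx : ‖x‖ = 1) (hy : ‖y‖ = 1) :
    dist (vv k x) (vv k y) = √(2 - 2 * ⟪x, y⟫ ^ 2) := by
  rw [EuclideanSpace.dist_eq, Fin.sum_univ_add, ← v9_dist hx hy]
  simp [vv, Real.dist_eq]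

theorem dist_vp (k : ℕ) {x : ℍ[ℝ]} (hx : ‖x‖ = 1) (j : Fin k) : dist (vv k x) (pp k j) = √2 := by
  rw [EuclideanSpace.dist_eq, Fin.sum_univ_add]
  congr 1
  have h1 := v9_norm hx
  have h2 : √(1 + k / 4) ^ 2 = 1 + k / 4 := Real.sq_sqrt (by positivity)
  have h3 : 0 < √(1 + k / 4) + 1 := by positivity
  have h4 : ∀ i : Fin k, (1 / (4 * (√(1 + k / 4) + 1)) + if i = j then 1 else 0) ^ 2 =
      (1 / (4 * (√(1 + k / 4) + 1))) ^ 2 +
        if i = j then 2 * (1 / (4 * (√(1 + k / 4) + 1))) + 1 else 0 := by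
    intro i
    split_ifs <;> ring
  simp only [vv, pp, Real.dist_eq, sq_abs, Fin.append_left, Fin.append_right, Pi.zero_apply, sub_zero, zero_sub,
    neg_sq, h1, h4, Finset.sum_add_distrib, Finset.sum_const, Finset.card_univ, Fintype.card_fin,
    Finset.sum_ite_eq', Finset.mem_univ, if_true, nsmul_eq_mul]
  have h5 : (k : ℝ) = 4 * (√(1 + k / 4) ^ 2 - 1) := by linarith
  generalize √(1 + k / 4) = s at *
  rw [h5]
  field_simp
  ring

theorem dist_pp (k : ℕ) {i j : Fin k} (h : i ≠ j) : dist (pp k i) (pp k j) = √2 := by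
  rw [EuclideanSpace.dist_eq, Fin.sum_univ_add]
  congr 1
  have h4 : ∀ l : Fin k, ((if l = i then (1 : ℝ) else 0) - if l = j then 1 else 0) ^ 2 =
      (if l = i then 1 else 0) + if l = j then 1 else 0 := by
    intro l
    split_ifs with h1 h2
    · exact absurd (h1.symm.trans h2) h
    all_goals norm_num
  simp only [pp, Real.dist_eq, sq_abs, Fin.append_left, Fin.append_right, sub_self, add_sub_add_left_eq_sub, h4,
    Finset.sum_add_distrib, Finset.sum_ite_eq', Finset.mem_univ, if_true]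
  norm_num

/-- The counterexample. -/
def YY (k : ℕ) : Set (EuclideanSpace ℝ (Fin (9 + k))) :=
  vv k '' {x | ‖x‖ = 1} ∪ Set.range (pp k)

theorem dist_YY (k : ℕ) : ∀ a ∈ YY k, ∀ b ∈ YY k, dist a b ≤ √2 := by
  rintro _ (⟨x, hx, rfl⟩ | ⟨i, rfl⟩) _ (⟨y, hy, rfl⟩ | ⟨j, rfl⟩)
  · rw [dist_vv k hx hy]
    exact Real.sqrt_le_sqrt (by nlinarith [sq_nonneg ⟪x, y⟫])
  · exact (dist_vp k hx j).le
  · rw [dist_comm]
    exact (dist_vp k hy i).le
  · by_cases h : i = j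
    · simp [h]
    · exact (dist_pp k h).le

theorem bounded_YY (k : ℕ) : Bornology.IsBounded (YY k) :=
  Metric.isBounded_iff.2 ⟨√2, fun a ha b hb => dist_YY k a ha b hb⟩

theorem diam_YY (k : ℕ) : Metric.diam (YY k) = √2 := by
  refine le_antisymm (Metric.diam_le_of_forall_dist_le (by positivity) (dist_YY k)) ?_
  have h1 : ‖ee 0‖ = 1 := norm_iota _
  have h2 : ‖ee 1‖ = 1 := norm_iota _
  have := Metric.dist_le_diam_of_mem (bounded_YY k) (Or.inl ⟨_, h1, rfl⟩) (Or.inl ⟨_, h2, rfl⟩)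
  rw [dist_vv k h1 h2, inner_ee (by decide)] at this
  simpa using this

theorem no_cover (k : ℕ) (S : Fin (9 + k + 1) → Set (EuclideanSpace ℝ (Fin (9 + k))))
    (hS : YY k = ⋃ i, S i) (hd : ∀ i, Metric.diam (S i) < √2) : False := by
  classical
  have hsub : ∀ i, S i ⊆ YY k := fun i => hS ▸ Set.subset_iUnion S i
  have hidx : ∀ a, ∃ i, a ∈ YY k → a ∈ S i := by
    intro a
    by_cases ha : a ∈ YY k
    · obtain ⟨i, hi⟩ := Set.mem_iUnion.1 (hS ▸ ha)
      exact ⟨i, fun _ => hi⟩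
    · exact ⟨0, fun h => absurd h ha⟩
  choose ix hix using hidx
  obtain ⟨i0, -, hi0⟩ := Finset.exists_max_image Finset.univ (fun i => Metric.diam (S i))
    Finset.univ_nonempty
  have hD : ∀ a ∈ YY k, ∀ b ∈ YY k, ix a = ix b → dist a b ≤ Metric.diam (S i0) :=
    fun a ha b hb h => (Metric.dist_le_diam_of_mem ((bounded_YY k).subset (hsub _)) (hix a ha)
      (h ▸ hix b hb)).trans (hi0 _ (Finset.mem_univ _))
  have hD1 := hd i0
  have hD0 : 0 ≤ Metric.diam (S i0) := Metric.diam_nonneg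
  generalize Metric.diam (S i0) = D at *
  have hc : Function.Injective fun j => ix (pp k j) := by
    intro i j h
    by_contra hne
    have := hD _ (Or.inr ⟨i, rfl⟩) _ (Or.inr ⟨j, rfl⟩) h
    rw [dist_pp k hne] at this
    linarith
  let e : {i // i ∉ Set.range fun j => ix (pp k j)} ≃ Fin 10 := Fintype.equivFinOfCardEq (by
    rw [Fintype.card_subtype_compl, Fintype.card_fin, Set.card_range_of_injective hc,
      Fintype.card_fin]
    omega)
  have hv : ∀ x : ℍ[ℝ], ‖x‖ = 1 → ix (vv k x) ∉ Set.range fun j => ix (pp k j) := by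
    rintro x hx ⟨j, hj⟩
    have := hD _ (Or.inl ⟨x, hx, rfl⟩) _ (Or.inr ⟨j, rfl⟩) hj.symm
    rw [dist_vp k hx] at this
    linarith
  let u : ℍ[ℝ] → ℍ[ℝ] := fun x => if x = 0 then 1 else ‖x‖⁻¹ • x
  have hu : ∀ x, ‖u x‖ = 1 := by
    intro x
    simp only [u]
    split_ifs with h
    · exact norm_one
    · exact norm_smul_inv_norm h
  have hD2 : D ^ 2 < 2 := by
    have := Real.sq_sqrt (show (0 : ℝ) ≤ 2 by norm_num)
    nlinarith
  refine no_good (fun x => e ⟨ix (vv k (u x)), hv _ (hu x)⟩) (1 - D ^ 2 / 2) ⟨by linarith,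
    fun x => ?_, fun x y h => ?_⟩
  · have : vv k (u (-x)) = vv k (u x) := by
      simp only [u, neg_eq_zero, norm_neg]
      split_ifs
      · rfl
      · rw [smul_neg, vv, v9_neg, vv]
    simp only [this]
  · by_cases hx : x = 0
    · simp [hx]
    by_cases hy : y = 0
    · simp [hy]
    have h1 := hD _ (Or.inl ⟨_, hu x, rfl⟩) _ (Or.inl ⟨_, hu y, rfl⟩)
      (congrArg Subtype.val (e.injective h))
    rw [dist_vv k (hu x) (hu y), Real.sqrt_le_left hD0] at h1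
    have h2 := abs_real_inner_le_norm (u x) (u y)
    rw [hu, hu] at h2
    have h3 : 1 - D ^ 2 / 2 ≤ |⟪u x, u y⟫| := by
      nlinarith [sq_abs ⟪u x, u y⟫, abs_nonneg ⟪u x, u y⟫]
    have h4 : 0 < ‖x‖ * ‖y‖ := mul_pos (norm_pos_iff.2 hx) (norm_pos_iff.2 hy)
    have h5 : ⟪x, y⟫ = ⟪u x, u y⟫ * (‖x‖ * ‖y‖) := by
      simp only [u, hx, hy, if_false, real_inner_smul_left, real_inner_smul_right]
      have := (norm_pos_iff.2 hx).ne'
      have := (norm_pos_iff.2 hy).ne'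
      field_simp
    rw [h5, abs_mul, abs_of_pos h4]
    exact mul_le_mul_of_nonneg_right h3 h4.le

end Vale.Agent.P052
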