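import Vale.Agent.P052.VR
import Vale.Agent.P052.Comb

/-! Colourings of a four-dimensional space: the family of sets of colours missed by a hyperplane. -/

namespace Vale.Agent.P052

open Finset RealInnerProductSpace

variable {E : Type} [NormedAddCommGroup E] [InnerProductSpace ℝ E]

/-- An even colouring in which vectors of the same colour are far from orthogonal. -/
structure Good (col : E → Col) (ε : ℝ) : Prop where
  pos : 0 < ε
  even : ∀ x, col (-x) = col x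
  far : ∀ x y, col x = col y → ε * (‖x‖ * ‖y‖) ≤ |⟪x, y⟫|

/-- Sets of colours missed by some hyperplane. -/
def Miss (col : E → Col) (P : Finset Col) : Prop :=
  ∃ x0 : E, x0 ≠ 0 ∧ ∀ z : E, z ≠ 0 → ⟪z, x0⟫ = 0 → col z ∉ P

/-- `x` is near `y`. -/
def Near (ε : ℝ) (x y : E) : Prop := ‖x - y‖ < ε * ‖y‖

variable {col : E → Col} {ε : ℝ}

theorem Good.near_ne (h : Good col ε) {x y z : E} (hn : Near ε x y) (hz : z ≠ 0)
    (hzx : ⟪z, x⟫ = 0) : col z ≠ col y := by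
  intro hc
  have h1 := h.far z y hc
  have h2 : ⟪z, y⟫ = -⟪z, x - y⟫ := by rw [inner_sub_right, hzx]; ring
  have h3 := abs_real_inner_le_norm z (x - y)
  have h4 : 0 < ‖z‖ := norm_pos_iff.2 hz
  rw [h2, abs_neg] at h1
  unfold Near at hn
  nlinarith

theorem Good.miss (h : Good col ε) {x : E} (hx : x ≠ 0) {P : Finset Col}
    (hP : ∀ c ∈ P, ∃ y, Near ε x y ∧ col y = c) : Miss col P := by
  refine ⟨x, hx, fun z hz hzx hc => ?_⟩
  obtain ⟨y, hy, hy'⟩ := hP _ hc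
  exact h.near_ne hy hz hzx hy'.symm

theorem Good.exists_sign (h : Good col ε) : ∃ s : E → F, (∀ x, x ≠ 0 → s (-x) = s x + 1) ∧
    ∀ x y, Near ε x y → col x = col y → s x = s y := by
  classical
  have hr : ∀ c : Col, ∃ r : E, (∃ y, y ≠ 0 ∧ col y = c) → r ≠ 0 ∧ col r = c := by
    intro c
    by_cases hc : ∃ y, y ≠ 0 ∧ col y = c
    · exact ⟨hc.choose, fun _ => hc.choose_spec⟩
    · exact ⟨0, fun h => absurd h hc⟩
  choose r hr using hr
  refine ⟨fun x => if 0 < ⟪x, r (col x)⟫ then 1 else 0, fun x hx => ?_, fun x y hn hc => ?_⟩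
  · obtain ⟨h1, h2⟩ := hr (col x) ⟨x, hx, rfl⟩
    have h3 := h.far x _ h2.symm
    have h4 : 0 < ε * (‖x‖ * ‖r (col x)‖) :=
      mul_pos h.pos (mul_pos (norm_pos_iff.2 hx) (norm_pos_iff.2 h1))
    have h5 : ⟪x, r (col x)⟫ ≠ 0 := abs_pos.1 (h4.trans_le h3)
    simp only [h.even, inner_neg_left]
    rcases h5.lt_or_gt with h6 | h6
    · rw [if_pos (by linarith), if_neg (by linarith), zero_add]
    · rw [if_neg (by linarith), if_pos h6]
      rfl
  · have hy : y ≠ 0 := by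
      rintro rfl
      simp [Near, not_lt.2 (norm_nonneg x)] at hn
    obtain ⟨h1, h2⟩ := hr (col y) ⟨y, hy, rfl⟩
    have h3 := h.far y _ h2.symm
    have h4 : 0 < ‖r (col y)‖ := norm_pos_iff.2 h1
    have h5 := abs_real_inner_le_norm (x - y) (r (col y))
    have h6 : ‖x - y‖ * ‖r (col y)‖ < ε * (‖y‖ * ‖r (col y)‖) := by
      unfold Near at hn
      nlinarith
    rw [inner_sub_left] at h5
    simp only [hc]
    have h7 := abs_lt.1 (h5.trans_lt (h6.trans_le h3))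
    by_cases h8 : 0 < ⟪y, r (col y)⟫
    · rw [abs_of_pos h8] at h7
      rw [if_pos h8, if_pos (by linarith)]
    · rw [abs_of_nonpos (not_lt.1 h8)] at h7
      rw [if_neg h8, if_neg (by linarith)]

theorem exists_unit_orth (hE : Module.finrank ℝ E = 4) (a b c : E) :
    ∃ z : E, ‖z‖ = 1 ∧ ⟪z, a⟫ = 0 ∧ ⟪z, b⟫ = 0 ∧ ⟪z, c⟫ = 0 := by
  have : FiniteDimensional ℝ E := Module.finite_of_finrank_pos (by omega)
  let f : E →ₗ[ℝ] ℝ × ℝ × ℝ := (innerₛₗ ℝ a).prod ((innerₛₗ ℝ b).prod (innerₛₗ ℝ c))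
  have hk : LinearMap.ker f ≠ ⊥ := f.ker_ne_bot_of_finrank_lt (by simp [hE])
  obtain ⟨z, hz, hz0⟩ := Submodule.exists_mem_ne_zero_of_ne_bot hk
  have h1 : ⟪a, z⟫ = 0 ∧ ⟪b, z⟫ = 0 ∧ ⟪c, z⟫ = 0 := by simpa [f, Prod.ext_iff] using hz
  refine ⟨‖z‖⁻¹ • z, norm_smul_inv_norm hz0, ?_, ?_, ?_⟩ <;>
    rw [inner_smul_left, real_inner_comm] <;> simp [h1]

/-- Parametrisation of a hemisphere. -/
def hemi (u v y : E) (p : ℝ × ℝ) : E := p.1 • u + p.2 • v + (1 - |p.1| - |p.2|) • y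

section hemi

variable {u v y : E} (hu : ‖u‖ = 1) (hv : ‖v‖ = 1) (hy : ‖y‖ = 1) (huv : ⟪u, v⟫ = 0)
  (huy : ⟪u, y⟫ = 0) (hvy : ⟪v, y⟫ = 0)

include hu hv hy huv huy hvy in
theorem hemi_inner (p q : ℝ × ℝ) : ⟪hemi u v y p, hemi u v y q⟫ =
    p.1 * q.1 + p.2 * q.2 + (1 - |p.1| - |p.2|) * (1 - |q.1| - |q.2|) := by
  simp only [hemi, inner_add_left, inner_add_right, real_inner_smul_left, real_inner_smul_right,
    real_inner_self_eq_norm_sq, hu, hv, hy, huv, huy, hvy, real_inner_comm u, real_inner_comm v y]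
  ring

include hu hv hy huv huy hvy in
theorem hemi_norm (p : ℝ × ℝ) : 1 / 2 ≤ ‖hemi u v y p‖ := by
  have h := hemi_inner hu hv hy huv huy hvy p p
  rw [real_inner_self_eq_norm_sq, ← abs_mul_abs_self p.1, ← abs_mul_abs_self p.2] at h
  by_contra hc
  have := norm_nonneg (hemi u v y p)
  nlinarith [sq_nonneg (|p.1| - |p.2|), sq_nonneg (|p.1| + |p.2| - 2 / 3)]

include hu hv hy in
theorem hemi_dist (p q : ℝ × ℝ) : ‖hemi u v y p - hemi u v y q‖ ≤ 4 * dist p q := by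
  have e : hemi u v y p - hemi u v y q = (p.1 - q.1) • u + (p.2 - q.2) • v +
      ((|q.1| - |p.1|) + (|q.2| - |p.2|)) • y := by
    simp only [hemi]
    module
  have h1 : |p.1 - q.1| ≤ dist p q := le_max_left _ _
  have h2 : |p.2 - q.2| ≤ dist p q := le_max_right _ _
  have h3 := abs_abs_sub_abs_le_abs_sub q.1 p.1
  have h4 := abs_abs_sub_abs_le_abs_sub q.2 p.2
  have h5 := abs_add_le (|q.1| - |p.1|) (|q.2| - |p.2|)
  rw [abs_sub_comm q.1] at h3
  rw [abs_sub_comm q.2] at h4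
  rw [e]
  refine (norm_add₃_le).trans ?_
  simp only [norm_smul, hu, hv, hy, Real.norm_eq_abs, mul_one]
  linarith

include hu hv hy huv huy hvy in
theorem hemi_near (hε : 0 < ε) {p q : ℝ × ℝ} (h : dist p q < ε / 8) :
    Near ε (hemi u v y p) (hemi u v y q) := by
  have h1 := hemi_dist hu hv hy p q
  have h2 := hemi_norm hu hv hy huv huy hvy q
  unfold Near
  nlinarith

omit [InnerProductSpace ℝ E] in
theorem hemi_side [NormedSpace ℝ E] {p : ℝ × ℝ} (hp : p ∈ side) :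
    1 - |p.1| - |p.2| = 0 := by
  obtain ⟨h1, h2, h3⟩ := hp
  rw [abs_of_nonneg h1, abs_of_nonneg h2]
  linarith

theorem hemi_neg {p : ℝ × ℝ} (hp : 1 - |p.1| - |p.2| = 0) :
    hemi u v y (rot (rot p)) = -hemi u v y p := by
  simp only [hemi, rot, abs_neg, hp]
  module

theorem hemi_orth {x : E} (h1 : ⟪u, x⟫ = 0) (h2 : ⟪v, x⟫ = 0) {p : ℝ × ℝ}
    (h3 : ⟪y, x⟫ = 0 ∨ 1 - |p.1| - |p.2| = 0) : ⟪hemi u v y p, x⟫ = 0 := by
  simp only [hemi, inner_add_left, real_inner_smul_left, h1, h2]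
  rcases h3 with h3 | h3 <;> simp [h3]

end hemi

/-- The disc argument in terms of labels. -/
theorem Good.disc (h : Good col ε) {u v y : E} (hu : ‖u‖ = 1) (hv : ‖v‖ = 1) (hy : ‖y‖ = 1)
    (huv : ⟪u, v⟫ = 0) (huy : ⟪u, y⟫ = 0) (hvy : ⟪v, y⟫ = 0) (A B : Col → Prop)
    (hA : ∀ p, A (col (hemi u v y p))) (hB : ∀ p, 1 - |p.1| - |p.2| = 0 → B (col (hemi u v y p)))
    (ζ η : Col × F → Col × F → F) (hs : ∀ l l', ζ l l' = ζ l' l) (h0 : ∀ l, ζ l l = 0)
    (h3 : ∀ l l' l'' : Col × F, A l.1 → A l'.1 → A l''.1 → l.1 ≠ l'.1 → l.1 ≠ l''.1 →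
      l'.1 ≠ l''.1 → Miss col {l.1, l'.1, l''.1} → ζ l' l'' + ζ l l'' + ζ l l' = 0)
    (h2 : ∀ l m l' m' : Col × F, B l.1 → B m.1 → B l'.1 → B m'.1 → l.1 ≠ m.1 → l.1 ≠ m'.1 →
      l'.1 ≠ m.1 → l'.1 ≠ m'.1 → (l.1 = l'.1 → l.2 = l'.2) → (m.1 = m'.1 → m.2 = m'.2) →
      ζ l l' + ζ m m' + ζ (l.1, l.2 + 1) (l'.1, l'.2 + 1) + ζ (m.1, m.2 + 1) (m'.1, m'.2 + 1) =
        η l m + η l' m')
    (h1 : ∀ l m : Col × F, B l.1 → B m.1 → l.1 ≠ m.1 → η l m ≠ η m (l.1, l.2 + 1)) : False := by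
  obtain ⟨s, hs1, hs2⟩ := h.exists_sign
  have hε : 0 < ε / 8 := by linarith [h.pos]
  let L : ℝ × ℝ → Col × F := fun p => (col (hemi u v y p), s (hemi u v y p))
  have hne : ∀ p, hemi u v y p ≠ 0 := fun p => norm_pos_iff.1 (by
    linarith [hemi_norm hu hv hy huv huy hvy p])
  have hnear : ∀ {p q}, dist p q < ε / 8 → Near ε (hemi u v y p) (hemi u v y q) := fun h' =>
    hemi_near hu hv hy huv huy hvy h.pos h'
  have hL : ∀ {p q}, dist p q < ε / 8 → (L p).1 = (L q).1 → (L p).2 = (L q).2 := fun h' =>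
    hs2 _ _ (hnear h')
  have hrot : ∀ p : ℝ × ℝ, 1 - |p.1| - |p.2| = 0 → 1 - |(rot p).1| - |(rot p).2| = 0 := by
    intro p hp
    simp only [rot, abs_neg]
    linarith
  have hneg : ∀ p : ℝ × ℝ, 1 - |p.1| - |p.2| = 0 → L (rot (rot p)) = ((L p).1, (L p).2 + 1) := by
    intro p hp
    simp only [L, hemi_neg hp, h.even, hs1 _ (hne p)]
  have horth : ∀ p q : ℝ × ℝ, 1 - |p.1| - |p.2| = 0 → dist p q < ε / 8 →
      (L q).1 ≠ (L (rot p)).1 := by
    intro p q hp hpq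
    refine (h.near_ne (hnear hpq) (hne _) ?_).symm
    rw [hemi_inner hu hv hy huv huy hvy, hp]
    simp only [rot]
    ring
  have key := disc_lemma hε (fun p => η (L p) (L (rot p))) (fun p q => ζ (L p) (L q))
    (fun p _ q _ r _ hpq hpr hqr => by
      by_cases c1 : (L p).1 = (L q).1
      · rw [Prod.ext c1 (hL hpq c1), h0, add_self', add_zero]
      by_cases c2 : (L p).1 = (L r).1
      · rw [Prod.ext c2 (hL hpr c2), h0, add_zero, hs, add_self']
      by_cases c3 : (L q).1 = (L r).1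
      · rw [Prod.ext c3 (hL hqr c3), h0, zero_add, add_self']
      refine h3 _ _ _ (hA p) (hA q) (hA r) c1 c2 c3 (h.miss (hne p) ?_)
      simp only [mem_insert, mem_singleton, forall_eq_or_imp, forall_eq]
      exact ⟨⟨_, hnear (by simpa using hε), rfl⟩, ⟨_, hnear hpq, rfl⟩, ⟨_, hnear hpr, rfl⟩⟩)
    (fun p hp q hq hpq => by
      have hp' := hemi_side (E := E) hp
      have hq' := hemi_side (E := E) hq
      rw [hneg p hp', hneg q hq', hneg _ (hrot p hp'), hneg _ (hrot q hq')]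
      exact h2 _ _ _ _ (hB p hp') (hB _ (hrot p hp')) (hB q hq') (hB _ (hrot q hq'))
        (horth p p hp' (by simpa using hε)) (horth q p hq' (by rwa [dist_comm]))
        (horth p q hp' hpq) (horth q q hq' (by simpa using hε)) (hL hpq)
        (hL (by rwa [dist_rot])))
  have e1 : ((0 : ℝ), (1 : ℝ)) = rot (1, 0) := by simp [rot]
  have e2 : 1 - |((1 : ℝ), (0 : ℝ)).1| - |((1 : ℝ), (0 : ℝ)).2| = 0 := by simp
  simp only [e1, hneg _ e2] at key
  exact h1 _ _ (hB _ e2) (hB _ (hrot _ e2)) (horth _ _ e2 (by simpa using hε)) key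

theorem Good.f2 (h : Good col ε) (hE : Module.finrank ℝ E = 4) (P Q : Finset Col)
    (hP : Miss col P) (hQ : Miss col Q) : (P ∪ Q).card ≤ 7 := by
  obtain ⟨x0, -, h0⟩ := hP
  obtain ⟨x1, -, h1⟩ := hQ
  by_contra hc
  obtain ⟨u, hu, u0, u1, -⟩ := exists_unit_orth hE x0 x1 x1
  obtain ⟨v, hv, v0, v1, vu⟩ := exists_unit_orth hE x0 x1 u
  obtain ⟨y, hy, yu, yv, -⟩ := exists_unit_orth hE u v v
  rw [real_inner_comm] at vu yu yv
  have h3 : ∀ a b c : Col, a ∉ P ∪ Q → b ∉ P ∪ Q → c ∉ P ∪ Q → a ≠ b → c ≠ b → a = c := by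
    intro a b c ha hb hc' hab hcb
    by_contra hac
    have h4 : ({a, b, c} : Finset Col) ⊆ (P ∪ Q)ᶜ := by
      intro x hx
      simp only [mem_insert, mem_singleton] at hx
      rcases hx with rfl | rfl | rfl <;> rwa [mem_compl]
    have h5 := card_le_card h4
    rw [card_eq_three.2 ⟨a, b, c, hab, hac, hcb.symm, rfl⟩, card_compl, Fintype.card_fin] at h5
    omega
  refine h.disc hu hv hy vu yu yv (fun _ => True) (fun c => c ∉ P ∪ Q) (fun _ => trivial)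
    (fun p hp => ?_) (fun _ _ => 0) (fun l m => if l.1 < m.1 then 1 else 0) (fun _ _ => rfl)
    (fun _ => rfl) (by intros; rfl) ?_ ?_
  · have hne : hemi u v y p ≠ 0 := norm_pos_iff.1 (by linarith [hemi_norm hu hv hy vu yu yv p])
    rw [mem_union, not_or]
    exact ⟨h0 _ hne (hemi_orth u0 v0 (Or.inr hp)), h1 _ hne (hemi_orth u1 v1 (Or.inr hp))⟩
  · intro l m l' m' b1 b2 b3 b4 n1 n2 n3 n4 _ _
    rw [← h3 _ _ _ b1 b2 b3 n1 n3, ← h3 _ _ _ b2 b1 b4 n1.symm n2.symm]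
    simp only [add_zero, add_self']
  · intro l m _ _ hne
    rcases hne.lt_or_gt with h4 | h4 <;> simp [h4, h4.le]

theorem Good.f1 (h : Good col ε) (hE : Module.finrank ℝ E = 4) (P : Finset Col)
    (hP : Miss col P) : P.card ≤ 4 := by
  have hP' := hP
  obtain ⟨x0, -, h0⟩ := hP'
  by_contra hc
  obtain ⟨u, hu, u0, -, -⟩ := exists_unit_orth hE x0 x0 x0
  obtain ⟨v, hv, v0, vu, -⟩ := exists_unit_orth hE x0 u u
  obtain ⟨y, hy, y0, yu, yv⟩ := exists_unit_orth hE x0 u v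
  rw [real_inner_comm] at vu yu yv
  refine h.disc hu hv hy vu yu yv (fun c => c ∉ P) (fun _ => True) (fun p => ?_)
    (fun _ _ => trivial) (fun l m => (if l.1 < m.1 ∧ l.2 = 1 ∧ m.2 = 0 then 1 else 0) +
      if m.1 < l.1 ∧ m.2 = 1 ∧ l.2 = 0 then 1 else 0) (fun l m => l.2 + m.2)
    (fun _ _ => add_comm _ _) (fun _ => add_self' _) ?_ ?_ ?_
  · exact h0 _ (norm_pos_iff.1 (by linarith [hemi_norm hu hv hy vu yu yv p]))
      (hemi_orth u0 v0 (Or.inl y0))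
  · intro l l' l'' a1 a2 a3 n1 n2 n3 hm
    have h4 := h.f2 hE _ _ hP hm
    rw [card_union_of_disjoint (by simp [a1, a2, a3]),
      card_eq_three.2 ⟨_, _, _, n1, n2, n3, rfl⟩] at h4
    omega
  · have key : ∀ l l' : Col × F, (l.1 = l'.1 → l.2 = l'.2) →
        ((if l.1 < l'.1 ∧ l.2 = 1 ∧ l'.2 = 0 then (1 : F) else 0) +
          if l'.1 < l.1 ∧ l'.2 = 1 ∧ l.2 = 0 then 1 else 0) +
        ((if l.1 < l'.1 ∧ l.2 + 1 = 1 ∧ l'.2 + 1 = 0 then (1 : F) else 0) +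
          if l'.1 < l.1 ∧ l'.2 + 1 = 1 ∧ l.2 + 1 = 0 then 1 else 0) = l.2 + l'.2 := by
      decide +kernel
    intro l m l' m' _ _ _ _ _ _ _ _ e1 e2
    linear_combination key l l' e1 + key m m' e2
  · intro l m _ _ _
    have : ∀ a b : F, a + b ≠ b + (a + 1) := by decide
    exact this _ _

theorem Good.f3 (hE : Module.finrank ℝ E = 4) (P Q R : Finset Col)
    (hP : Miss col P) (hQ : Miss col Q) (hR : Miss col R) : P ∪ Q ∪ R ≠ univ := by
  obtain ⟨x0, -, h0⟩ := hP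
  obtain ⟨x1, -, h1⟩ := hQ
  obtain ⟨x2, -, h2⟩ := hR
  obtain ⟨u, hu, u0, u1, u2⟩ := exists_unit_orth hE x0 x1 x2
  have hne : u ≠ 0 := norm_pos_iff.1 (by linarith)
  intro hc
  have : col u ∈ P ∪ Q ∪ R := by rw [hc]; exact mem_univ _
  simp [h0 u hne u0, h1 u hne u1, h2 u hne u2] at this

/-- The cochain of the edges from `1` with positive sign to `2`. -/
def zeta (a : Fin 3) (s : F) (b : Fin 3) (t : F) : F :=
  (if a = 1 ∧ s = 1 ∧ b = 2 then 1 else 0) + if b = 1 ∧ t = 1 ∧ a = 2 then 1 else 0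

/-- A function on the hexagon of ordered pairs. -/
def eta (a b : Fin 3) : F := if (a = 0 ∧ b = 1) ∨ (a = 2 ∧ b = 1) ∨ (a = 2 ∧ b = 0) then 0 else 1

theorem Good.h1 (h : Good col ε) (hE : Module.finrank ℝ E = 4) (S T : Finset Col)
    (hS : Miss col S) (hT : Miss col T) (h7 : (S ∪ T).card = 7) (e f : Col) (he : e ∉ S ∪ T)
    (hf : f ∉ S ∪ T) (hef : e ≠ f) : ∃ z ∈ T, Miss col {e, f, z} := by
  have hS' := hS
  have hT' := hT
  obtain ⟨x0, -, h0⟩ := hS'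
  obtain ⟨x1, -, h1⟩ := hT'
  by_contra hc
  obtain ⟨u, hu, u0, u1, -⟩ := exists_unit_orth hE x0 x1 x1
  obtain ⟨v, hv, v0, v1, vu⟩ := exists_unit_orth hE x0 x1 u
  obtain ⟨y, hy, y0, yu, yv⟩ := exists_unit_orth hE x0 u v
  rw [real_inner_comm] at vu yu yv
  have hfull : ∀ z, z ∉ S ∪ T → z ≠ e → z ≠ f → S ∪ T ∪ {e, f, z} = univ := by
    intro z hz h1 h2
    apply eq_univ_of_card
    rw [card_union_of_disjoint (by
        simp only [disjoint_insert_right, disjoint_singleton_right]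
        exact ⟨he, hf, hz⟩),
      card_eq_three.2 ⟨_, _, _, hef, h1.symm, h2.symm, rfl⟩, h7]
    rfl
  have hno : ∀ z, z ∉ S → z ≠ e → z ≠ f → ¬ Miss col {e, f, z} := by
    intro z hz h1 h2 hm
    by_cases hzT : z ∈ T
    · exact hc ⟨z, hzT, hm⟩
    · exact Good.f3 hE _ _ _ hS hT hm (hfull z (by simp [hz, hzT]) h1 h2)
  let k : Col → Fin 3 := fun c => if c = e then 1 else if c = f then 2 else 0
  have k1 : ∀ c, k c = 1 ↔ c = e := by
    intro c
    simp only [k]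
    split_ifs with h1 h2
    · simp [h1]
    · simp [h1]
    · simp [h1]
  have k2 : ∀ c, k c = 2 ↔ c = f := by
    intro c
    simp only [k]
    split_ifs with h1 h2
    · simp [h1, hef]
    · simp [h2]
    · simp [h2]
  have hk : ∀ a b, a ∉ S ∪ T → b ∉ S ∪ T → a ≠ b → k a ≠ k b := by
    intro a b ha hb hab hkk
    have a1 : a ≠ e := fun h' => hab (h'.trans ((k1 b).1 (hkk ▸ (k1 a).2 h')).symm)
    have a2 : a ≠ f := fun h' => hab (h'.trans ((k2 b).1 (hkk ▸ (k2 a).2 h')).symm)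
    have b1 : b ≠ e := fun h' => a1 ((k1 a).1 (hkk ▸ (k1 b).2 h'))
    have b2 : b ≠ f := fun h' => a2 ((k2 a).1 (hkk ▸ (k2 b).2 h'))
    have : b ∈ S ∪ T ∪ {e, f, a} := by rw [hfull a ha a1 a2]; exact mem_univ _
    rw [mem_union] at this
    simp [hb, b1, b2, hab.symm] at this
  have hne : ∀ p, hemi u v y p ≠ 0 := fun p =>
    norm_pos_iff.1 (by linarith [hemi_norm hu hv hy vu yu yv p])
  refine h.disc hu hv hy vu yu yv (fun c => c ∉ S) (fun c => c ∉ S ∪ T)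
    (fun p => h0 _ (hne p) (hemi_orth u0 v0 (Or.inl y0))) (fun p hp => ?_)
    (fun l m => zeta (k l.1) l.2 (k m.1) m.2) (fun l m => eta (k l.1) (k m.1))
    (fun _ _ => add_comm _ _) (fun _ => add_self' _) ?_ ?_ ?_
  · rw [mem_union, not_or]
    exact ⟨h0 _ (hne p) (hemi_orth u0 v0 (Or.inr hp)), h1 _ (hne p) (hemi_orth u1 v1 (Or.inr hp))⟩
  · have hz : ∀ l m n : Col × F, n.1 ∉ S → l.1 ≠ n.1 → m.1 ≠ n.1 → Miss col {l.1, m.1, n.1} →
        zeta (k l.1) l.2 (k m.1) m.2 = 0 := by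
      intro l m n hn h1 h2 hm
      unfold zeta
      rw [if_neg, if_neg, add_zero]
      · rintro ⟨c1, -, c2⟩
        rw [k1] at c1
        rw [k2] at c2
        rw [c1, c2] at hm
        exact hno _ hn (c1 ▸ h2.symm) (c2 ▸ h1.symm) (by rwa [insert_comm])
      · rintro ⟨c1, -, c2⟩
        rw [k1] at c1
        rw [k2] at c2
        rw [c1, c2] at hm
        exact hno _ hn (c1 ▸ h1.symm) (c2 ▸ h2.symm) hm
    intro l l' l'' a1 a2 a3 n1 n2 n3 hm
    rw [hz l l' l'' a3 n2 n3 hm, hz l l'' l' a2 n1 n3.symm (by rwa [pair_comm l''.1]),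
      hz l' l'' l a1 n1.symm n2.symm (by rwa [pair_comm l''.1, insert_comm]), add_zero, add_zero]
  · have key : ∀ (a b a' b' : Fin 3) (s t s' t' : F), a ≠ b → a ≠ b' → a' ≠ b → a' ≠ b' →
        zeta a s a' s' + zeta b t b' t' + zeta a (s + 1) a' (s' + 1) + zeta b (t + 1) b' (t' + 1) =
          eta a b + eta a' b' := by decide +kernel
    intro l m l' m' b1 b2 b3 b4 n1 n2 n3 n4 _ _
    exact key _ _ _ _ _ _ _ _ (hk _ _ b1 b2 n1) (hk _ _ b1 b4 n2) (hk _ _ b3 b2 n3)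
      (hk _ _ b3 b4 n4)
  · have key : ∀ a b : Fin 3, a ≠ b → eta a b ≠ eta b a := by decide
    intro l m b1 b2 n1
    exact key _ _ (hk _ _ b1 b2 n1)

theorem Good.nerve (h : Good col ε) (hE : Module.finrank ℝ E = 4) : Nerve (Miss col) where
  down _ _ hPQ := fun ⟨x, hx, h0⟩ => ⟨x, hx, fun z hz hzx hc => h0 z hz hzx (hPQ hc)⟩
  f1 := h.f1 hE
  f2 := h.f2 hE
  f3 := Good.f3 hE
  h1 S T hS hT _ h7 := h.h1 hE S T hS hT h7

end Vale.Agent.P052
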