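import Vale.Agent.P052.PS

/-! The groups acting on frames. -/

namespace Vale.Agent.P052

open Quaternion RealInnerProductSpace

/-- Permutations of four indices preserving the pairing. -/
def H : Subgroup (Equiv.Perm (Fin 4)) where
  carrier := {σ | ∀ i j : Fin 4, (σ i).val / 2 = (σ j).val / 2 ↔ i.val / 2 = j.val / 2}
  one_mem' := fun _ _ => Iff.rfl
  mul_mem' := fun {a b} ha hb i j => (ha (b i) (b j)).trans (hb i j)
  inv_mem' := fun {a} ha i j => by simpa using (ha (a⁻¹ i) (a⁻¹ j)).symm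

noncomputable instance : Fintype H := Fintype.ofFinite H

instance {α : Type} : MulAction H (Fin 4 × α) where
  smul h x := (h.1 x.1, x.2)
  one_smul _ := rfl
  mul_smul _ _ _ := rfl

theorem H_smul {α : Type} (h : H) (x : Fin 4 × α) : h • x = (h.1 x.1, x.2) := rfl

/-- The quaternion with given coordinates. -/
def qq (a b c d : ℝ) : ℍ[ℝ] := ⟨a, b, c, d⟩

@[simp] theorem qq_re (a b c d : ℝ) : (qq a b c d).re = a := rfl
@[simp] theorem qq_imI (a b c d : ℝ) : (qq a b c d).imI = b := rfl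
@[simp] theorem qq_imJ (a b c d : ℝ) : (qq a b c d).imJ = c := rfl
@[simp] theorem qq_imK (a b c d : ℝ) : (qq a b c d).imK = d := rfl

/-- A primitive eighth root of unity. -/
noncomputable def ww : ℍ[ℝ] := qq (√2 / 2) (√2 / 2) 0 0

/-- The quaternion `j`. -/
def jj : ℍ[ℝ] := qq 0 0 1 0

theorem sq_half : √2 / 2 * (√2 / 2) = 1 / 2 := by
  have := Real.mul_self_sqrt (show (0 : ℝ) ≤ 2 by norm_num)
  linarith

theorem ww_two : ww ^ 2 = qq 0 1 0 0 := by
  rw [sq]
  ext <;> simp [ww, sq_half]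
  norm_num

theorem ww_four : ww ^ 4 = -1 := by
  rw [show 4 = 2 + 2 from rfl, pow_add, ww_two]
  ext <;> simp

theorem ww_eight : ww ^ 8 = 1 := by
  rw [show 8 = 4 + 4 from rfl, pow_add, ww_four]
  simp

theorem ww_seven : ww ^ 7 = qq (√2 / 2) (-(√2 / 2)) 0 0 := by
  rw [show 7 = 4 + 2 + 1 from rfl, pow_add, pow_add, ww_four, ww_two, pow_one]
  ext <;> simp [ww]

theorem ww_jj : ww * jj = jj * ww ^ 7 := by
  rw [ww_seven]
  ext <;> simp [ww, jj]

theorem ww_pow_jj (n : ℕ) : ww ^ n * jj = jj * ww ^ (7 * n) := by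
  induction n with
  | zero => simp
  | succ n ih => rw [pow_succ', mul_assoc, ih, ← mul_assoc, ww_jj, mul_assoc, ← pow_add]; ring_nf

theorem jj_jj : jj * jj = ww ^ 4 := by
  rw [ww_four]
  ext <;> simp [jj]

theorem norm_ww : ‖ww‖ = 1 := by
  have h := congrArg norm ww_eight
  rw [norm_pow, norm_one] at h
  exact (pow_eq_one_iff_of_nonneg (norm_nonneg _) (by norm_num)).1 h

theorem norm_jj : ‖jj‖ = 1 := by
  have h := congrArg norm jj_jj
  rw [norm_pow, norm_ww, norm_mul, one_pow] at h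
  nlinarith [norm_nonneg jj]

/-- The quaternion with a given code. -/
noncomputable def iota (n : ℕ) : ℍ[ℝ] := jj ^ (n / 8) * ww ^ (n % 8)

theorem norm_iota (n : ℕ) : ‖iota n‖ = 1 := by simp [iota, norm_ww, norm_jj]

/-- Multiplication of codes. -/
def mulc (a b : ℕ) : ℕ :=
  8 * ((a / 8 + b / 8) % 2) + ((1 + 6 * (b / 8)) * (a % 8) + b % 8 + 4 * (a / 8 * (b / 8))) % 8

theorem mulc_lt (a b : ℕ) : mulc a b < 16 := by
  unfold mulc
  omega

theorem iota_mul {a b : ℕ} (ha : a < 16) (hb : b < 16) : iota (mulc a b) = iota a * iota b := by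
  have e1 : mulc a b / 8 = (a / 8 + b / 8) % 2 := by unfold mulc; omega
  have e2 : mulc a b % 8 = ((1 + 6 * (b / 8)) * (a % 8) + b % 8 + 4 * (a / 8 * (b / 8))) % 8 := by
    unfold mulc; omega
  rw [iota, iota, iota, e1, e2, ← pow_eq_pow_mod _ ww_eight]
  obtain h1 | h1 : a / 8 = 0 ∨ a / 8 = 1 := by omega
  all_goals obtain h2 | h2 : b / 8 = 0 ∨ b / 8 = 1 := by omega
  all_goals simp only [h1, h2, Nat.reduceAdd, Nat.reduceMod, Nat.reduceMul, pow_zero, pow_one,
    one_mul, add_zero, pow_add]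
  · rw [← mul_assoc, ← mul_assoc, ww_pow_jj]
  · rw [mul_assoc]
  · rw [mul_assoc jj, ← mul_assoc (ww ^ (a % 8)), ww_pow_jj, ← mul_assoc, ← mul_assoc, jj_jj,
      ← pow_add, ← pow_add, ← pow_add, ← pow_add]
    ring_nf

theorem iota_zero : iota 0 = 1 := by simp [iota]

theorem iota_four : iota 4 = -1 := by simp [iota, ww_four]

theorem re_iota {c : ℕ} (hc0 : c < 16) (hc : c ≤ 1 ∨ 7 ≤ c) : 0 ≤ (iota c).re := by
  obtain rfl | rfl | rfl | hc : c = 0 ∨ c = 1 ∨ c = 7 ∨ 8 ≤ c := by omega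
  · simp [iota]
  · simp only [iota, Nat.reduceDiv, pow_zero, Nat.reduceMod, pow_one, one_mul, ww, qq_re]
    positivity
  · simp only [iota, Nat.reduceDiv, pow_zero, Nat.reduceMod, one_mul, ww_seven, qq_re]
    positivity
  · have h1 : c / 8 = 1 := by omega
    have h2 : ∀ n, (ww ^ n).imJ = 0 ∧ (ww ^ n).imK = 0 := by
      intro n
      induction n with
      | zero => simp
      | succ n ih =>
        have h3 : ww.imJ = 0 := rfl
        have h4 : ww.imK = 0 := rfl
        simp [pow_succ, ih, h3, h4]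
    simp [iota, h1, jj, h2]

theorem star_mul_of_norm {u : ℍ[ℝ]} (hu : ‖u‖ = 1) : star u * u = 1 := by
  rw [star_mul_self, normSq_eq_norm_mul_self, hu]
  simp

theorem inner_mul_left (u x y : ℍ[ℝ]) : ⟪u * x, u * y⟫ = ‖u‖ ^ 2 * ⟪x, y⟫ := by
  rw [sq, ← normSq_eq_norm_mul_self, normSq_def']
  simp only [inner_def, re_mul, imI_mul, imJ_mul, imK_mul, re_star, imI_star, imJ_star, imK_star]
  ring

theorem inner_mul_right (u x y : ℍ[ℝ]) : ⟪x * u, y * u⟫ = ‖u‖ ^ 2 * ⟪x, y⟫ := by
  rw [sq, ← normSq_eq_norm_mul_self, normSq_def']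
  simp only [inner_def, re_mul, imI_mul, imJ_mul, imK_mul, re_star, imI_star, imJ_star, imK_star]
  ring

/-- Adjacency of codes. -/
def adjc (a b : ℕ) : Bool :=
  !(Nat.beq (a / 8) (b / 8)) || Nat.ble ((a + 9 - b % 8) % 8) 2

theorem inner_iota {a b : ℕ} (ha : a < 16) (hb : b < 16) (h : adjc a b = true) :
    0 ≤ ⟪iota a, iota b⟫ := by
  have key : ∀ a < 16, ∀ b < 16, adjc a b = true → ∃ c < 16,
      (c ≤ 1 ∨ 7 ≤ c) ∧ a = mulc b c := by
    decide +kernel
  obtain ⟨c, hc, hc', rfl⟩ := key a ha b hb h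
  rw [iota_mul hb hc]
  nth_rewrite 2 [← mul_one (iota b)]
  rw [inner_mul_left, norm_iota, inner_def]
  simpa using re_iota hc hc'

/-- Codes of the standard frame. -/
def hat (i : ℕ) : ℕ := 8 * (i / 2) + 2 * (i % 2)

/-- The standard frame. -/
noncomputable def ee (i : Fin 4) : ℍ[ℝ] := iota (hat i)

theorem inner_ee {i j : Fin 4} (h : i ≠ j) : ⟪ee i, ee j⟫ = 0 := by
  have e0 : ee 0 = 1 := by simp [ee, hat, iota]
  have e1 : ee 1 = qq 0 1 0 0 := by simp [ee, hat, iota, ww_two]
  have e2 : ee 2 = qq 0 0 1 0 := by simp [ee, hat, iota, jj]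
  have e3 : ee 3 = qq 0 0 0 (-1) := by
    have : ee 3 = jj * ww ^ 2 := by
      rw [← pow_one jj]
      rfl
    rw [this, ww_two]
    ext <;> simp [jj]
  fin_cases i <;> fin_cases j <;> simp_all [inner_def]

/-- Equality up to sign. -/
def PM (x y : ℍ[ℝ]) : Prop := x = y ∨ x = -y

theorem PM.mul {x y : ℍ[ℝ]} (h : PM x y) (a b : ℍ[ℝ]) : PM (a * x * b) (a * y * b) := by
  rcases h with rfl | rfl
  · exact Or.inl rfl
  · exact Or.inr (by simp)

theorem PM.symm {x y : ℍ[ℝ]} (h : PM x y) : PM y x := by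
  rcases h with rfl | rfl
  · exact Or.inl rfl
  · exact Or.inr (by simp)

theorem PM.trans {x y z : ℍ[ℝ]} (h : PM x y) (h' : PM y z) : PM x z := by
  rcases h with rfl | rfl <;> rcases h' with rfl | rfl <;> simp [PM]

theorem PM.ee_eq {i j : Fin 4} (h : PM (ee i) (ee j)) : i = j := by
  by_contra hne
  have h1 := inner_ee hne
  have h2 : ‖ee j‖ = 1 := norm_iota _
  rcases h with h | h <;> simp [h, h2] at h1

/-- Unit quaternions. -/
abbrev S3 : Type := Metric.sphere (0 : ℍ[ℝ]) 1

theorem S3_norm (u : S3) : ‖(u : ℍ[ℝ])‖ = 1 := by simp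

theorem S3_ne (u : S3) : (u : ℍ[ℝ]) ≠ 0 := norm_pos_iff.1 (by rw [S3_norm]; exact one_pos)

/-- Pairs of unit quaternions permuting the frame up to sign. -/
def GG : Subgroup (S3 × S3 × H) where
  carrier := {g | ∀ i, PM (g.1 * ee i) (ee (g.2.2.1 i) * g.2.1)}
  one_mem' := fun i => Or.inl (by simp)
  mul_mem' := fun {a b} ha hb i => by
    have h1 := (hb i).mul a.1 1
    have h2 := (ha (b.2.2.1 i)).mul 1 b.2.1
    simp only [mul_one, one_mul, mul_assoc] at h1 h2
    simpa [mul_assoc] using h1.trans h2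
  inv_mem' := fun {a} ha i => by
    have h1 := (ha (a.2.2.1⁻¹ i)).mul (a.1 : ℍ[ℝ])⁻¹ (a.2.1 : ℍ[ℝ])⁻¹
    rw [← mul_assoc, inv_mul_cancel₀ (S3_ne _), one_mul, mul_assoc _ (_ * _), mul_assoc,
      mul_inv_cancel₀ (S3_ne _), mul_one] at h1
    simpa using h1.symm

/-- The group acting on pairs of quaternions. -/
def G : Type := GG

noncomputable instance : Group G := inferInstanceAs (Group GG)

/-- The first quaternion. -/
def G.l (g : G) : ℍ[ℝ] := g.1.1

/-- The second quaternion. -/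
def G.r (g : G) : ℍ[ℝ] := g.1.2.1

/-- The permutation of the frame. -/
def piG : G →* H where
  toFun g := g.1.2.2
  map_one' := rfl
  map_mul' _ _ := rfl

theorem G.l_mul (a b : G) : (a * b).l = a.l * b.l := rfl
theorem G.r_mul (a b : G) : (a * b).r = a.r * b.r := rfl
theorem G.l_one : (1 : G).l = 1 := rfl
theorem G.r_one : (1 : G).r = 1 := rfl
theorem G.norm_l (a : G) : ‖a.l‖ = 1 := S3_norm _
theorem G.norm_r (a : G) : ‖a.r‖ = 1 := S3_norm _
theorem G.rel (a : G) (i : Fin 4) : PM (a.l * ee i) (ee ((piG a).1 i) * a.r) := a.2 i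

theorem G_ext {g g' : G} (h1 : g.l = g'.l) (h2 : g.r = g'.r) : g = g' := by
  refine Subtype.ext (Prod.ext (Subtype.ext h1) (Prod.ext (Subtype.ext h2)
    (Subtype.ext (Equiv.ext fun i => ?_))))
  have h3 := g.rel i
  rw [h1, h2] at h3
  have h4 := (h3.symm.trans (g'.rel i)).mul 1 g'.r⁻¹
  have h5 : g'.r ≠ 0 := S3_ne _
  simp only [one_mul, mul_assoc, mul_inv_cancel₀ h5, mul_one] at h4
  exact h4.ee_eq

noncomputable instance : MulAction G (ℍ[ℝ] × ℍ[ℝ]) where
  smul g z := (g.l * z.1, g.r * z.2)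
  one_smul z := by
    change ((1 : ℍ[ℝ]) * z.1, (1 : ℍ[ℝ]) * z.2) = z
    simp
  mul_smul a b z := by
    change (a.l * b.l * z.1, a.r * b.r * z.2) = (a.l * (b.l * z.1), a.r * (b.r * z.2))
    simp [mul_assoc]

theorem G_smul (g : G) (z : ℍ[ℝ] × ℍ[ℝ]) : g • z = (g.l * z.1, g.r * z.2) := rfl

noncomputable instance : MulAction G (List (ℍ[ℝ] × ℍ[ℝ])) where
  smul g l := l.map (g • ·)
  one_smul l := by
    change l.map _ = l
    simp
  mul_smul a b l := by
    change l.map _ = (l.map _).map _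
    rw [List.map_map]
    exact List.map_congr_left fun z _ => mul_smul a b z

theorem G_smul_list (g : G) (l : List (ℍ[ℝ] × ℍ[ℝ])) : g • l = l.map (g • ·) := rfl

theorem dist_G_smul (g : G) (z z' : ℍ[ℝ] × ℍ[ℝ]) : dist (g • z) (g • z') = dist z z' := by
  rw [Prod.dist_eq, Prod.dist_eq]
  simp only [G_smul, dist_eq_norm, ← mul_sub, norm_mul, G.norm_l, G.norm_r, one_mul]

/-- The frame attached to a pair of quaternions. -/
noncomputable def fr (i : Fin 4) (z : ℍ[ℝ] × ℍ[ℝ]) : ℍ[ℝ] := star z.1 * ee i * z.2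

theorem fr_smul (g : G) (i : Fin 4) (z : ℍ[ℝ] × ℍ[ℝ]) :
    PM (fr ((piG g).1 i) (g • z)) (fr i z) := by
  have h := ((g.rel i).symm.mul (star z.1 * star g.l) z.2)
  have e : star z.1 * star g.l * (g.l * ee i) * z.2 = fr i z := by
    rw [fr, mul_assoc (star z.1), ← mul_assoc (star _) _ (ee i), star_mul_of_norm g.norm_l,
      one_mul]
  rw [e] at h
  simpa [fr, G_smul, mul_assoc] using h

theorem inner_fr {i j : Fin 4} (h : i ≠ j) (z : ℍ[ℝ] × ℍ[ℝ]) : ⟪fr i z, fr j z⟫ = 0 := by
  rw [fr, fr, inner_mul_right, inner_mul_left, inner_ee h]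
  simp

theorem norm_fr (i : Fin 4) (z : ℍ[ℝ] × ℍ[ℝ]) : ‖fr i z‖ = ‖z.1‖ * ‖z.2‖ := by
  simp [fr, ee, norm_iota]

/-- The table of permutations. -/
def piTab : ℕ :=
  22723328304006333205084932164824249355612469106024968335934167951673337827708761682115421890389793006154762869261701774320443068332336222771031099107221180555696338095243747015150042394380337625861138439351434740714240593548593843344258601809306686377844023652814500527515183559719944158476986900648827725242540306188716397969667020132970960228757878097808512100387511588533850568230154489782151243980435755614580284246652196192145280286783760992072525108900689158083130651848937795192562882377480930133172204865076213797767356092865228970468797097356205040973332488710178119848242657261105730910893879519839027003620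

/-- The permutation attached to a code. -/
def piC (c i : ℕ) : ℕ := (piTab >>> (8 * c + 2 * i)) % 4

/-- Codes of group elements. -/
def okc (c : ℕ) : Bool := Nat.ble c 255 && Nat.beq (c % 2) (c / 16 % 2)

theorem exists_el (c : ℕ) : ∃ g : G, okc c = true → g.l = iota (c % 16) ∧
    g.r = iota (c / 16) ∧ ∀ i, ((piG g).1 i).val = piC c i := by
  by_cases hc : okc c = true
  swap
  · exact ⟨1, fun h => absurd h hc⟩
  have hc' : c < 256 := by
    simp only [okc, Bool.and_eq_true, Nat.ble_eq] at hc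
    omega
  have k0 : ∀ i, piC c i < 4 := fun i => by unfold piC; omega
  have k1 : ∀ c < 256, okc c = true → ∀ i j : Fin 4, (piC c i = piC c j → i = j) ∧
      (piC c i / 2 = piC c j / 2 ↔ i.val / 2 = j.val / 2) ∧
      (mulc (c % 16) (hat i) = mulc (hat (piC c i)) (c / 16) ∨
        mulc (c % 16) (hat i) = mulc 4 (mulc (hat (piC c i)) (c / 16))) := by decide +kernel
  have k2 : ∀ i < 4, hat i < 16 := by decide
  let σ : Equiv.Perm (Fin 4) := Equiv.ofBijective (fun i => ⟨piC c i, k0 i⟩)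
    (Finite.injective_iff_bijective.1 fun i j h => (k1 c hc' hc i j).1 (congrArg Fin.val h))
  refine ⟨⟨(⟨iota (c % 16), by simp [norm_iota]⟩, ⟨iota (c / 16), by simp [norm_iota]⟩,
    ⟨σ, fun i j => (k1 c hc' hc i j).2.1⟩), fun i => ?_⟩, fun _ => ⟨rfl, rfl, fun _ => rfl⟩⟩
  change PM (iota (c % 16) * iota (hat i)) (iota (hat (piC c i)) * iota (c / 16))
  rw [← iota_mul (by omega) (k2 _ i.2), ← iota_mul (k2 _ (k0 i)) (by omega)]
  rcases (k1 c hc' hc i i).2.2 with h | h
  · exact Or.inl (by rw [h])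
  · exact Or.inr (by rw [h, iota_mul (by omega) (mulc_lt _ _), iota_four, neg_one_mul])

/-- The group element with a given code. -/
noncomputable def el (c : ℕ) : G := (exists_el c).choose

theorem el_spec {c : ℕ} (hc : okc c = true) : (el c).l = iota (c % 16) ∧
    (el c).r = iota (c / 16) ∧ ∀ i, ((piG (el c)).1 i).val = piC c i :=
  (exists_el c).choose_spec hc

/-- Multiplication of codes of group elements. -/
def mulG (c c' : ℕ) : ℕ := mulc (c % 16) (c' % 16) + 16 * mulc (c / 16) (c' / 16)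

theorem el_mul {c c' : ℕ} (hc : okc c = true) (hc' : okc c' = true) :
    el (mulG c c') = el c * el c' := by
  have k : ∀ a < 16, ∀ b < 16, mulc a b % 2 = (a + b) % 2 := by decide +kernel
  have h1 := hc
  have h2 := hc'
  simp only [okc, Bool.and_eq_true, Nat.ble_eq, Nat.beq_eq] at h1 h2
  have l1 := mulc_lt (c % 16) (c' % 16)
  have l2 := mulc_lt (c / 16) (c' / 16)
  have e1 : mulG c c' % 16 = mulc (c % 16) (c' % 16) := by unfold mulG; omega
  have e2 : mulG c c' / 16 = mulc (c / 16) (c' / 16) := by unfold mulG; omega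
  have h3 : okc (mulG c c') = true := by
    have p1 := k (c % 16) (by omega) (c' % 16) (by omega)
    have p2 := k (c / 16) (by omega) (c' / 16) (by omega)
    simp only [okc, Bool.and_eq_true, Nat.ble_eq, Nat.beq_eq, e2]
    unfold mulG
    omega
  refine G_ext ?_ ?_
  · rw [(el_spec h3).1, e1, iota_mul (by omega) (by omega), ← (el_spec hc).1, ← (el_spec hc').1]
    rfl
  · rw [(el_spec h3).2.1, e2, iota_mul (by omega) (by omega), ← (el_spec hc).2.1,
      ← (el_spec hc').2.1]
    rfl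

end Vale.Agent.P052
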