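import Vale.Agent.P052.VR

/-! The cellular chain complex of products of simplices. -/

namespace Vale.Agent.P052

open Finsupp Pointwise

variable {U ι : Type} [Fintype U] [DecidableEq U] [DecidableEq ι] (pr : U → ι)

/-- `a` can be removed from the cell `P`. -/
def Rem (P : Finset U) (a : U) : Prop := a ∈ P ∧ ∃ b ∈ P, b ≠ a ∧ pr b = pr a

instance (P : Finset U) (a : U) : Decidable (Rem pr P a) := by unfold Rem; infer_instance

/-- `P` is a vertex. -/
def IsV (P : Finset U) : Prop := P.Nonempty ∧ ∀ a, ¬ Rem pr P a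

instance (P : Finset U) : Decidable (IsV pr P) := by unfold IsV; infer_instance

/-- The boundary of a cell. -/
noncomputable def bdP (P : Finset U) : Finset U →₀ F :=
  (∑ a : U, if Rem pr P a then single (P.erase a) 1 else 0) + if IsV pr P then single ∅ 1 else 0

/-- The boundary operator. -/
noncomputable def dP : (Finset U →₀ F) →ₗ[F] (Finset U →₀ F) := lin (bdP pr)

/-- `P` meets every fibre. -/
def Valid (P : Finset U) : Prop := ∀ a : U, ∃ b ∈ P, pr b = pr a

/-- Cells of the augmented complex. -/
def AdmP (P : Finset U) : Prop := P = ∅ ∨ Valid pr P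

/-- The degree of a cell (dimension plus one). -/
def degP (P : Finset U) : ℕ := if P = ∅ then 0 else P.card + 1 - (Finset.univ.image pr).card

@[simp] theorem dP_single (P : Finset U) : dP pr (single P 1) = bdP pr P := lin_single _ _

theorem bdP_empty : bdP pr ∅ = 0 := by simp [bdP, Rem, IsV]

theorem Valid.image_eq {P : Finset U} (h : Valid pr P) : P.image pr = Finset.univ.image pr := by
  ext i
  simp only [Finset.mem_image, Finset.mem_univ, true_and]
  constructor
  · rintro ⟨a, -, rfl⟩
    exact ⟨a, rfl⟩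
  · rintro ⟨a, rfl⟩
    exact h a

theorem Valid.card_ge {P : Finset U} (h : Valid pr P) : (Finset.univ.image pr).card ≤ P.card := by
  rw [← h.image_eq]
  exact Finset.card_image_le

theorem Valid.card_eq {P : Finset U} (h : Valid pr P) (h' : ∀ a, ¬ Rem pr P a) :
    (Finset.univ.image pr).card = P.card := by
  rw [← h.image_eq]
  refine Finset.card_image_of_injOn fun a ha b hb hab => ?_
  by_contra hne
  exact h' b ⟨hb, a, ha, hne, hab⟩

omit [Fintype U] [DecidableEq ι] in
theorem Valid.erase {P : Finset U} (h : Valid pr P) {c : U} (hc : Rem pr P c) :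
    Valid pr (P.erase c) := by
  intro a
  obtain ⟨b, hb, hab⟩ := h a
  obtain ⟨-, q, hq, hqc, hpr⟩ := hc
  by_cases hbc : b = c
  · exact ⟨q, Finset.mem_erase.2 ⟨hqc, hq⟩, by rw [hpr, ← hbc, hab]⟩
  · exact ⟨b, Finset.mem_erase.2 ⟨hbc, hb⟩, hab⟩

theorem bdP_support {P P' : Finset U} (hP : AdmP pr P) (h : P' ∈ (bdP pr P).support) :
    AdmP pr P' ∧ P' ⊆ P ∧ degP pr P' + 1 = degP pr P := by
  rcases hP with rfl | hP
  · simp [bdP_empty] at h
  have : bdP pr P ∈ supported F F
      {P' | AdmP pr P' ∧ P' ⊆ P ∧ degP pr P' + 1 = degP pr P} := by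
    refine Submodule.add_mem _ (Submodule.sum_mem _ fun a _ => ?_) ?_
    · split_ifs with ha
      · refine single_mem_supported F _ ⟨Or.inr (hP.erase pr ha), Finset.erase_subset _ _, ?_⟩
        have h1 := (hP.erase pr ha).card_ge
        have h2 := Finset.card_erase_add_one ha.1
        obtain ⟨-, b, hb, hba, -⟩ := ha
        have h3 : P.erase a ≠ ∅ := Finset.ne_empty_of_mem (Finset.mem_erase.2 ⟨hba, hb⟩)
        simp only [degP, h3, Finset.ne_empty_of_mem hb, if_false]
        omega
      · exact Submodule.zero_mem _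
    · split_ifs with ha
      · refine single_mem_supported F _ ⟨Or.inl rfl, Finset.empty_subset _, ?_⟩
        have := hP.card_eq pr ha.2
        simp only [degP, ha.1.ne_empty, if_true, if_false]
        omega
      · exact Submodule.zero_mem _
  exact this h

omit [Fintype U] [DecidableEq ι] in
theorem rem_symm {P : Finset U} {a b : U} (h1 : Rem pr P a) (h2 : Rem pr (P.erase a) b) :
    Rem pr P b ∧ Rem pr (P.erase b) a := by
  obtain ⟨ha, c, hc, hca, hpc⟩ := h1
  obtain ⟨hb, c', hc', hcb, hpc'⟩ := h2
  rw [Finset.mem_erase] at hb hc'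
  refine ⟨⟨hb.2, c', hc'.2, hcb, hpc'⟩, Finset.mem_erase.2 ⟨hb.1.symm, ha⟩, ?_⟩
  by_cases h : c = b
  · exact ⟨c', Finset.mem_erase.2 ⟨hcb, hc'.2⟩, hc'.1, by rw [hpc', ← h, hpc]⟩
  · exact ⟨c, Finset.mem_erase.2 ⟨h, hc⟩, hca, hpc⟩

theorem dP_bdP (P : Finset U) : dP pr (bdP pr P) = 0 := by
  have e1 : dP pr (bdP pr P) = (∑ x : U × U, if Rem pr P x.1 ∧ Rem pr (P.erase x.1) x.2 then
      single ((P.erase x.1).erase x.2) (1 : F) else 0) +
      ∑ a : U, if Rem pr P a ∧ IsV pr (P.erase a) then single ∅ (1 : F) else 0 := by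
    rw [bdP, map_add, map_sum, Fintype.sum_prod_type, ← Finset.sum_add_distrib]
    have : dP pr (if IsV pr P then single ∅ 1 else 0) = 0 := by
      split_ifs
      · rw [dP_single, bdP_empty]
      · simp
    rw [this, add_zero]
    refine Finset.sum_congr rfl fun a _ => ?_
    by_cases ha : Rem pr P a
    · simp only [ha, if_true, true_and, dP_single, bdP]
    · simp [ha]
  rw [e1]
  have e2 : (∑ x : U × U, if Rem pr P x.1 ∧ Rem pr (P.erase x.1) x.2 then
      single ((P.erase x.1).erase x.2) (1 : F) else 0) = 0 := by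
    refine Finset.sum_involution (fun x _ => x.swap) ?_ ?_ (fun _ _ => Finset.mem_univ _)
      (fun _ _ => rfl)
    · rintro ⟨a, b⟩ -
      by_cases h : Rem pr P a ∧ Rem pr (P.erase a) b
      · have h' := rem_symm pr h.1 h.2
        simp only [h, h', and_self, if_true, Prod.swap_prod_mk, Finset.erase_right_comm (a := a)]
        exact add_self' _
      · have h' : ¬ (Rem pr P b ∧ Rem pr (P.erase b) a) := fun h' => h (rem_symm pr h'.1 h'.2)
        simp [h, h']
    · rintro ⟨a, b⟩ - h h'
      have : b = a := congrArg Prod.fst h'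
      subst this
      simp [Rem] at h
  rw [e2, zero_add, ← Finset.sum_filter]
  by_cases hex : ∃ a, Rem pr P a ∧ IsV pr (P.erase a)
  · obtain ⟨a, ⟨ha, b, hb, hba, hpb⟩, hv⟩ := hex
    have : (Finset.univ.filter fun a => Rem pr P a ∧ IsV pr (P.erase a)) = {a, b} := by
      ext c
      simp only [Finset.mem_filter, Finset.mem_univ, true_and, Finset.mem_insert,
        Finset.mem_singleton]
      constructor
      · rintro ⟨-, hc⟩
        by_contra hne
        rw [not_or] at hne
        exact hc.2 a ⟨Finset.mem_erase.2 ⟨Ne.symm hne.1, ha⟩, b,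
          Finset.mem_erase.2 ⟨Ne.symm hne.2, hb⟩, hba, hpb⟩
      · rintro (rfl | rfl)
        · exact ⟨⟨ha, b, hb, hba, hpb⟩, hv⟩
        · refine ⟨⟨hb, a, ha, hba.symm, hpb.symm⟩, ⟨a, Finset.mem_erase.2 ⟨hba.symm, ha⟩⟩, ?_⟩
          rintro x ⟨hx, y, hy, hyx, hpy⟩
          rw [Finset.mem_erase] at hx hy
          have hc : c ∈ P.erase a := Finset.mem_erase.2 ⟨hba, hb⟩
          by_cases h1 : x = a
          · exact hv.2 c ⟨hc, y, Finset.mem_erase.2 ⟨h1 ▸ hyx, hy.2⟩, hy.1,
              by rw [hpy, h1, hpb]⟩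
          by_cases h2 : y = a
          · exact hv.2 c ⟨hc, x, Finset.mem_erase.2 ⟨h1, hx.2⟩, hx.1, by rw [← hpy, h2, hpb]⟩
          · exact hv.2 x ⟨Finset.mem_erase.2 ⟨h1, hx.2⟩, y, Finset.mem_erase.2 ⟨h2, hy.2⟩, hyx, hpy⟩
    rw [this, Finset.sum_pair hba.symm, add_self']
  · rw [Finset.filter_false_of_mem fun a _ h => hex ⟨a, h⟩, Finset.sum_empty]

theorem dP_dP (z : Finset U →₀ F) : dP pr (dP pr z) = 0 :=
  basis_ext (L := dP pr ∘ₗ dP pr) (L' := 0) (fun P => by simp [dP_bdP]) z

theorem dP_apply (z : Finset U →₀ F) {P' : Finset U} (hP' : Valid pr P') (hne : P' ≠ ∅) :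
    dP pr z P' = ∑ a : U, if a ∈ P' then 0 else z (insert a P') := by
  have := basis_ext (L := lapply P' ∘ₗ dP pr)
    (L' := ∑ a : U, if a ∈ P' then 0 else lapply (insert a P')) (fun P => ?_) z
  · rw [LinearMap.sum_apply] at this
    refine this.trans (Finset.sum_congr rfl fun a _ => ?_)
    split_ifs <;> rfl
  · rw [LinearMap.sum_apply]
    simp only [LinearMap.comp_apply, dP_single, bdP, map_add, map_sum]
    have : (lapply P' : _ →ₗ[F] F) (if IsV pr P then single (∅ : Finset U) (1 : F) else 0) = 0 := by
      split_ifs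
      · simp [hne]
      · simp
    rw [this, add_zero]
    refine Finset.sum_congr rfl fun a _ => ?_
    by_cases ha : a ∈ P'
    · rw [if_pos ha]
      split_ifs
      · have : P.erase a ≠ P' := fun h => by simp [← h] at ha
        simp [this]
      · simp
    · rw [if_neg ha]
      by_cases hP : P = insert a P'
      · subst hP
        obtain ⟨b, hb, hpb⟩ := hP' a
        have : Rem pr (insert a P') a :=
          ⟨by simp, b, by simp [hb], fun h => ha (h ▸ hb), hpb⟩
        simp [this, Finset.erase_insert ha]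
      · split_ifs with hr
        · have : P.erase a ≠ P' := fun h => hP (by rw [← h, Finset.insert_erase hr.1])
          simp [this, hP]
        · simp [hP]

theorem dP_apply_univ [Nonempty U] (z : Finset U →₀ F) : dP pr z Finset.univ = 0 := by
  rw [dP_apply pr z (fun a => ⟨a, Finset.mem_univ _, rfl⟩) Finset.univ_nonempty.ne_empty]
  simp

section action

variable {G : Type} [Group G] [MulAction G U]
  (hG : ∀ (g : G) (a b : U), pr a = pr b → pr (g • a) = pr (g • b))

include hG

omit [Fintype U] [DecidableEq ι] in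
theorem rem_smul (g : G) (P : Finset U) (a : U) : Rem pr (g • P) (g • a) ↔ Rem pr P a := by
  have key : ∀ (g : G) (P : Finset U) (a : U), Rem pr P a → Rem pr (g • P) (g • a) := by
    rintro g P a ⟨ha, b, hb, hba, hpb⟩
    exact ⟨Finset.smul_mem_smul_finset ha, g • b, Finset.smul_mem_smul_finset hb,
      fun h => hba (MulAction.injective g h), hG g _ _ hpb⟩
  refine ⟨fun h => ?_, key g P a⟩
  simpa using key g⁻¹ _ _ h

omit [Fintype U] [DecidableEq ι] in
theorem isV_smul (g : G) (P : Finset U) : IsV pr (g • P) ↔ IsV pr P := by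
  refine and_congr Finset.smul_finset_nonempty ⟨fun h a ha => h _ ((rem_smul pr hG g P a).2 ha),
    fun h a ha => h (g⁻¹ • a) ((rem_smul pr hG g P _).1 (by simpa using ha))⟩

theorem bdP_smul (g : G) (P : Finset U) : bdP pr (g • P) = (bdP pr P).mapDomain (g • ·) := by
  rw [← perm_apply, bdP, bdP, map_add, map_sum,
    ← Equiv.sum_comp (MulAction.toPerm g) (fun a => if Rem pr (g • P) a then _ else _)]
  congr 1
  · refine Finset.sum_congr rfl fun a _ => ?_
    simp only [MulAction.toPerm_apply, rem_smul pr hG]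
    split_ifs
    · rw [perm_apply, mapDomain_single]
      congr 1
      simp only [Finset.smul_finset_def]
      exact (Finset.image_erase (MulAction.injective g) P a).symm
    · simp
  · simp only [isV_smul pr hG]
    split_ifs
    · rw [perm_apply, mapDomain_single, Finset.smul_finset_empty]
    · simp

theorem dP_perm (g : G) (z : Finset U →₀ F) :
    dP pr (perm G (Finset U) g z) = perm G (Finset U) g (dP pr z) :=
  basis_ext (L := dP pr ∘ₗ perm G (Finset U) g) (L' := perm G (Finset U) g ∘ₗ dP pr)
    (fun P => by simp [perm_apply, bdP_smul pr hG]) z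

omit [Fintype U] [DecidableEq ι] in
theorem admP_smul (g : G) {P : Finset U} (h : AdmP pr P) : AdmP pr (g • P) := by
  rcases h with rfl | h
  · exact Or.inl (Finset.smul_finset_empty _)
  · refine Or.inr fun a => ?_
    obtain ⟨b, hb, hpb⟩ := h (g⁻¹ • a)
    exact ⟨g • b, Finset.smul_mem_smul_finset hb, by simpa using hG g _ _ hpb⟩

omit hG in
theorem degP_smul (g : G) (P : Finset U) : degP pr (g • P) = degP pr P := by
  simp [degP, Finset.card_smul_finset]

end action

/-- Chains of cells of degree `n` inside `Q`. -/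
def Car (Q : Finset U) (n : ℕ) : Submodule F (Finset U →₀ F) :=
  supported F F {P | AdmP pr P ∧ P ⊆ Q ∧ degP pr P = n}

theorem Car_mono {Q Q' : Finset U} (h : Q ⊆ Q') (n : ℕ) : Car pr Q n ≤ Car pr Q' n :=
  supported_mono fun _ hP => ⟨hP.1, hP.2.1.trans h, hP.2.2⟩

theorem Car_smul {G : Type} [Group G] [MulAction G U]
    (hG : ∀ (g : G) (a b : U), pr a = pr b → pr (g • a) = pr (g • b)) (g : G) {Q : Finset U}
    {n : ℕ} {z : Finset U →₀ F} (hz : z ∈ Car pr Q n) :
    perm G (Finset U) g z ∈ Car pr (g • Q) n := by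
  refine map_mem_supported _ (fun P hP => ?_) hz
  rw [perm_apply, mapDomain_single]
  exact single_mem_supported F _ ⟨admP_smul pr hG g hP.1, Finset.smul_finset_subset_smul_finset hP.2.1,
    (degP_smul pr g P).trans hP.2.2⟩

/-- The elementary homotopy. -/
noncomputable def hty (c q : U) (P : Finset U) : Finset U →₀ F :=
  if c ∈ P ∧ q ∉ P then single (insert q P) 1 else 0

/-- The elementary retraction. -/
noncomputable def retr (c q : U) (P : Finset U) : Finset U →₀ F :=
  if c ∈ P then (if q ∈ P then 0 else single ((insert q P).erase c) 1) else single P 1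

theorem hty_eq {c q : U} (hqc : q ≠ c) (hpr : pr q = pr c) (P : Finset U) :
    dP pr (hty c q P) + lin (hty c q) (bdP pr P) = single P 1 + retr c q P := by
  have e1 : dP pr (hty c q P) + lin (hty c q) (bdP pr P) = ∑ a : U,
      ((if c ∈ P ∧ q ∉ P ∧ Rem pr (insert q P) a then single ((insert q P).erase a) (1 : F) else 0)
        + if Rem pr P a then hty c q (P.erase a) else 0) := by
    rw [Finset.sum_add_distrib]
    congr 1
    · rw [hty]
      split_ifs with h
      · have : ¬ IsV pr (insert q P) := fun hv => hv.2 c ⟨by simp [h.1], q, by simp, hqc, hpr⟩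
        simp [bdP, this, h]
      · rw [map_zero, Finset.sum_eq_zero]
        intro a _
        exact if_neg fun h' => h ⟨h'.1, h'.2.1⟩
    · rw [bdP, map_add, map_sum]
      have : lin (hty c q) (if IsV pr P then single (∅ : Finset U) (1 : F) else 0) = 0 := by
        split_ifs
        · rw [lin_single]
          simp [hty]
        · simp
      rw [this, add_zero]
      refine Finset.sum_congr rfl fun a _ => ?_
      split_ifs
      · exact lin_single _ _
      · simp
  rw [e1, ← Finset.sum_subset (Finset.subset_univ {q, c}), Finset.sum_pair hqc]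
  · by_cases hc : c ∈ P
    · by_cases hq : q ∈ P
      · have : Rem pr P q := ⟨hq, c, hc, hqc.symm, hpr.symm⟩
        simp [hc, hq, this, hty, retr, hqc.symm]
      · have h1 : Rem pr (insert q P) q := ⟨by simp, c, by simp [hc], hqc.symm, hpr.symm⟩
        have h2 : Rem pr (insert q P) c := ⟨by simp [hc], q, by simp, hqc, hpr⟩
        have h3 : ¬ Rem pr P q := fun h => hq h.1
        simp [hc, hq, h1, h2, h3, hty, retr]
    · simp [hc, hty, retr, add_self']
  · intro a _ ha
    simp only [Finset.mem_insert, Finset.mem_singleton, not_or] at ha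
    by_cases h : c ∈ P ∧ q ∉ P
    · have hiff : Rem pr (insert q P) a ↔ Rem pr P a := by
        constructor
        · rintro ⟨h1, b, hb, hba, hpb⟩
          have h1' : a ∈ P := (Finset.mem_insert.1 h1).resolve_left ha.1
          rcases Finset.mem_insert.1 hb with rfl | hb
          · exact ⟨h1', c, h.1, Ne.symm ha.2, by rw [← hpr, hpb]⟩
          · exact ⟨h1', b, hb, hba, hpb⟩
        · rintro ⟨h1, b, hb, hba, hpb⟩
          exact ⟨by simp [h1], b, by simp [hb], hba, hpb⟩
      by_cases hr : Rem pr P a
      · simp only [h, hiff, hr, hty, Finset.mem_erase, ne_eq, Ne.symm ha.2, not_false_eq_true,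
          and_self, if_true, and_false]
        rw [Finset.erase_insert_of_ne (Ne.symm ha.1), add_self']
      · simp [hiff, hr]
    · rw [if_neg (fun h' => h ⟨h'.1, h'.2.1⟩), zero_add]
      split_ifs
      · refine if_neg fun h' => h ⟨Finset.mem_of_mem_erase h'.1, fun hq => h'.2 ?_⟩
        exact Finset.mem_erase.2 ⟨Ne.symm ha.1, hq⟩
      · rfl

theorem Car_acyclic [Nonempty U] (n : ℕ) (Q : Finset U) (hQ : Valid pr Q) (z : Finset U →₀ F)
    (hz : z ∈ Car pr Q n) (hd : dP pr z = 0) : ∃ c ∈ Car pr Q (n + 1), dP pr c = z := by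
  induction Q using Finset.strongInduction generalizing z with
  | H Q ih =>
  by_cases hex : ∃ c, Rem pr Q c
  · obtain ⟨c, hc⟩ := hex
    have hc' := hc
    obtain ⟨hcQ, q, hq, hqc, hpr⟩ := hc'
    have hid : dP pr (lin (hty c q) z) + lin (hty c q) (dP pr z) = z + lin (retr c q) z :=
      basis_ext (L := dP pr ∘ₗ lin (hty c q) + lin (hty c q) ∘ₗ dP pr)
        (L' := LinearMap.id + lin (retr c q)) (fun P => by simpa using hty_eq pr hqc hpr P) z
    rw [hd, map_zero, add_zero] at hid
    have hval : ∀ P, AdmP pr P → c ∈ P → Valid pr P ∧ Valid pr (insert q P) := by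
      intro P hP hcP
      have h1 : Valid pr P := hP.resolve_left (Finset.ne_empty_of_mem hcP)
      refine ⟨h1, fun a => ?_⟩
      obtain ⟨b, hb, hpb⟩ := h1 a
      exact ⟨b, by simp [hb], hpb⟩
    have h1 : lin (hty c q) z ∈ Car pr Q (n + 1) := by
      refine lin_mem fun P hP => ?_
      obtain ⟨hP1, hP2, hP3⟩ := hz hP
      rw [hty]
      split_ifs with h
      · obtain ⟨h2, h3⟩ := hval P hP1 h.1
        refine single_mem_supported F _ ⟨Or.inr h3, Finset.insert_subset hq hP2, ?_⟩
        have := h2.card_ge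
        simp only [degP, Finset.ne_empty_of_mem h.1, Finset.insert_ne_empty, if_false,
          Finset.card_insert_of_notMem h.2] at hP3 ⊢
        omega
      · exact Submodule.zero_mem _
    have h2 : lin (retr c q) z ∈ Car pr (Q.erase c) n := by
      refine lin_mem fun P hP => ?_
      obtain ⟨hP1, hP2, hP3⟩ := hz hP
      rw [retr]
      split_ifs with h h'
      · exact Submodule.zero_mem _
      · obtain ⟨h2, h3⟩ := hval P hP1 h
        refine single_mem_supported F _ ⟨Or.inr (h3.erase pr ⟨by simp [h], q, by simp, hqc, hpr⟩),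
          Finset.erase_subset_erase _ (Finset.insert_subset hq hP2), ?_⟩
        have h4 : (insert q P).erase c ≠ ∅ := Finset.ne_empty_of_mem (a := q) (by simp [hqc])
        have h5 : ((insert q P).erase c).card = P.card := by
          rw [Finset.card_erase_of_mem (by simp [h]), Finset.card_insert_of_notMem h']
          rfl
        simp only [degP, Finset.ne_empty_of_mem h, h4, h5, if_false] at hP3 ⊢
        exact hP3
      · exact single_mem_supported F _ ⟨hP1, Finset.subset_erase.2 ⟨hP2, h⟩, hP3⟩
    obtain ⟨c', hc1, hc2⟩ := ih (Q.erase c) (Finset.erase_ssubset hcQ) (hQ.erase pr hc) _ h2 (by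
      have := congrArg (dP pr) hid
      rwa [dP_dP, map_add, hd, zero_add, eq_comm] at this)
    refine ⟨lin (hty c q) z + c', Submodule.add_mem _ h1 (Car_mono pr (Finset.erase_subset _ _) _ hc1),
      ?_⟩
    rw [map_add, hid, hc2, add_assoc, add_self', add_zero]
  · have hex' : ∀ a, ¬ Rem pr Q a := fun a ha => hex ⟨a, ha⟩
    have hne : Q.Nonempty := by
      obtain ⟨b, hb, -⟩ := hQ (Classical.arbitrary U)
      exact ⟨b, hb⟩
    have hdeg : degP pr Q = 1 := by
      have := hQ.card_eq pr hex'
      simp only [degP, hne.ne_empty, if_false]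
      omega
    have hbd : bdP pr Q = single ∅ 1 := by
      simp [bdP, hex', show IsV pr Q from ⟨hne, hex'⟩]
    have hcase : ∀ P ∈ z.support, (P = ∅ ∧ n = 0) ∨ (P = Q ∧ n = 1) := by
      intro P hP
      obtain ⟨hP1, hP2, hP3⟩ := hz hP
      rcases hP1 with rfl | hP1
      · exact Or.inl ⟨rfl, by simpa [degP] using hP3.symm⟩
      · have : P = Q := by
          refine Finset.Subset.antisymm hP2 fun b hb => ?_
          obtain ⟨b', hb', hpb⟩ := hP1 b
          by_contra hcon
          exact hex' b ⟨hb, b', hP2 hb', fun h => hcon (h ▸ hb'), hpb⟩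
        exact Or.inr ⟨this, by rw [← hP3, this, hdeg]⟩
    by_cases hn : n = 0
    · have h1 : z = single ∅ (z ∅) := support_subset_singleton.1 fun P hP => by
        rcases hcase P hP with h | h
        · simp [h.1]
        · omega
      refine ⟨z ∅ • single Q 1, Submodule.smul_mem _ _ (single_mem_supported F _
        ⟨Or.inr hQ, subset_rfl, by omega⟩), ?_⟩
      rw [map_smul, dP_single, hbd, smul_single, smul_eq_mul, mul_one, ← h1]
    · have h1 : z = z Q • single Q 1 := by
        rw [smul_single, smul_eq_mul, mul_one]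
        exact support_subset_singleton.1 fun P hP => by
          rcases hcase P hP with h | h
          · omega
          · simp [h.1]
      refine ⟨0, Submodule.zero_mem _, ?_⟩
      rw [h1, map_smul, dP_single, hbd, smul_single, smul_eq_mul, mul_one, single_eq_zero] at hd
      rw [h1, hd, zero_smul, map_zero]

end Vale.Agent.P052
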