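import Vale.Agent.P052.Coarse
import Vale.Agent.P052.Geo

/-! Equivariant chain maps from the coarse complex to the complex of colourings. -/

namespace Vale.Agent.P052

open Finsupp Pointwise Quaternion RealInnerProductSpace

/-- Pairs of quaternions of moderate size. -/
def XX : Set (ℍ[ℝ] × ℍ[ℝ]) := {z | (1 / 4 ≤ ‖z.1‖ ∧ ‖z.1‖ ≤ 1) ∧ 1 / 4 ≤ ‖z.2‖ ∧ ‖z.2‖ ≤ 1}

/-- A geometric simplex. -/
def hull (u : ℍ[ℝ]) (V : List ℕ) : Set ℍ[ℝ] := convexHull ℝ {x | ∃ v ∈ V, x = u * iota v}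

theorem hull_mul (a : ℍ[ℝ]) {u x : ℍ[ℝ]} {V : List ℕ} (h : x ∈ hull u V) :
    a * x ∈ hull (a * u) V := by
  refine convexHull_min (t := (LinearMap.mulLeft ℝ a) ⁻¹' hull (a * u) V) ?_
    ((convex_convexHull ℝ _).linear_preimage _) h
  rintro _ ⟨v, hv, rfl⟩
  exact subset_convexHull ℝ _ ⟨v, hv, by simp [mul_assoc]⟩

theorem hull_mono {u : ℍ[ℝ]} {c : ℕ} (hc : c < 16) {V V' : List ℕ} (h' : okS V' = true)
    (h : ∀ v ∈ V', mulc c v ∈ V) : hull (u * iota c) V' ⊆ hull u V := by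
  refine convexHull_mono ?_
  rintro _ ⟨v, hv, rfl⟩
  exact ⟨_, h v hv, by rw [iota_mul hc ((okS_spec h').2.2 v hv).1, mul_assoc]⟩

theorem hull_norm {u x : ℍ[ℝ]} (hu : ‖u‖ = 1) {V : List ℕ} (hV : okS V = true)
    (h : x ∈ hull u V) : 1 / 4 ≤ ‖x‖ ∧ ‖x‖ ≤ 1 := by
  obtain ⟨-, h1, h2⟩ := okS_spec hV
  constructor
  · let s : ℍ[ℝ] := (V.map fun v => u * iota v).sum
    have hs : ‖s‖ ≤ 4 := by
      have h3 : ∀ l : List ℕ, ‖(l.map fun v => u * iota v).sum‖ ≤ l.length := by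
        intro l
        induction l with
        | nil => simp
        | cons a l ih =>
          rw [List.map_cons, List.sum_cons, List.length_cons]
          refine (norm_add_le _ _).trans ?_
          rw [norm_mul, hu, norm_iota]
          push_cast
          linarith
      exact (h3 V).trans (by exact_mod_cast h1)
    have h4 : 1 ≤ ⟪s, x⟫ := by
      refine convexHull_min (t := {x | 1 ≤ ⟪s, x⟫}) ?_
        (convex_halfSpace_ge (innerₛₗ ℝ s).isLinear 1) h
      rintro _ ⟨a, ha, rfl⟩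
      change 1 ≤ ⟪s, u * iota a⟫
      rw [real_inner_comm, ← innerₛₗ_apply_apply, map_list_sum, List.map_map]
      refine List.single_le_sum (fun y hy => ?_) _ (List.mem_map.2 ⟨a, ha, ?_⟩)
      · obtain ⟨b, hb, rfl⟩ := List.mem_map.1 hy
        simp only [Function.comp, innerₛₗ_apply_apply, inner_mul_left, hu, one_pow, one_mul]
        exact inner_iota (h2 a ha).1 (h2 b hb).1 ((h2 a ha).2 b hb)
      · simp [hu, norm_iota]
    have h5 := real_inner_le_norm s x
    nlinarith [norm_nonneg x]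
  · refine mem_closedBall_zero_iff.1 (convexHull_min ?_ (convex_closedBall 0 1) h)
    rintro _ ⟨a, -, rfl⟩
    simp [hu, norm_iota]

/-- The convex carrier of a cell. -/
def car1 : B1 → Set (ℍ[ℝ] × ℍ[ℝ])
  | .emp => ∅
  | .cell g k => hull g.l (sig k) ×ˢ hull g.r (tau k)

theorem car1_sub (b : B1) (h : Adm1 b) : car1 b ⊆ XX := by
  cases b with
  | emp => exact Set.empty_subset _
  | cell g k =>
    exact fun z hz => ⟨hull_norm g.norm_l (okK_spec h).1 hz.1,
      hull_norm g.norm_r (okK_spec h).2.1 hz.2⟩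

theorem car1_smul (g : G) (b : B1) {z : ℍ[ℝ] × ℍ[ℝ]} (h : z ∈ car1 b) : g • z ∈ car1 (g • b) := by
  cases b with
  | emp => exact h.elim
  | cell a k => exact ⟨hull_mul _ h.1, hull_mul _ h.2⟩

theorem car1_mono (b : B1) (h : Adm1 b) (b' : B1) (hb : b' ∈ (bd1 b).support) :
    car1 b' ⊆ car1 b := by
  cases b with
  | emp => simp [bd1] at hb
  | cell g k =>
    rcases bd1_support hb with ⟨f, hf, rfl⟩ | ⟨-, rfl⟩
    · obtain ⟨h1, h2, -, h3, h4⟩ := (okK_spec h).2.2.1 f hf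
      refine Set.prod_mono ?_ ?_
      · rw [G.l_mul, (el_spec h1).1]
        exact hull_mono (by omega) (okK_spec h2).1 h3
      · rw [G.r_mul, (el_spec h1).2.1]
        exact hull_mono (by omega) (okK_spec h2).2.1 h4
    · exact Set.empty_subset _

theorem hull_nonempty (u : ℍ[ℝ]) {V : List ℕ} (hV : okS V = true) : (hull u V).Nonempty := by
  obtain ⟨v, hv⟩ := List.exists_mem_of_length_pos (okS_spec hV).1
  exact ⟨_, subset_convexHull ℝ _ ⟨v, hv, rfl⟩⟩

theorem exists_phi1 {δ : ℝ} (hδ : 0 < δ) : ∃ φ : B1 → (List (ℍ[ℝ] × ℍ[ℝ]) →₀ F),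
    φ .emp = single [] 1 ∧ ∀ b, Adm1 b → φ b ∈ VR δ XX (deg1 b) ∧ dL (φ b) = lin φ (bd1 b) ∧
      ∀ g : G, φ (g • b) = perm G _ g (φ b) := by
  obtain ⟨h, hh⟩ := carrier (perm G (List (ℍ[ℝ] × ℍ[ℝ]))) dL (fun g x => dL_mapL (g • ·) x)
    Adm1 deg1 bd1 adm1_smul (fun g b _ => deg1_smul g b)
    (fun b hb b' hb' => ⟨(bd1_adm b hb b' hb').1, by have := (bd1_adm b hb b' hb').2; omega⟩)
    (fun g b _ => bd1_smul g b) bd1_bd1
    (fun g b _ h0 h x => by rw [free1 g b h0 h, map_one]; rfl)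
    (fun _ => 0) (fun g b _ => (map_zero _).symm) (fun b _ => by rw [map_zero, lin_zero])
    (fun b => VR δ (car1 b) (deg1 b)) (fun b => VR δ (car1 b) (deg1 b - 1))
    (fun g b x _ hx => by
      refine map_mem_supported _ (fun l hl => ?_) hx
      rw [perm_apply, mapDomain_single]
      refine single_mem_supported F _ ⟨by simp [G_smul_list, hl.1, deg1_smul], fun y hy => ?_,
        fun y hy y' hy' => ?_⟩
      · obtain ⟨x, hx, rfl⟩ := List.mem_map.1 hy
        exact car1_smul g b (hl.2.1 x hx)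
      · obtain ⟨x, hx, rfl⟩ := List.mem_map.1 hy
        obtain ⟨x', hx', rfl⟩ := List.mem_map.1 hy'
        rw [dist_G_smul]
        exact hl.2.2 x hx x' hx')
    (fun b _ => Submodule.zero_mem _)
    (fun b hb b' hb' => by
      rw [← (bd1_adm b hb b' hb').2]
      exact VR_mono δ (car1_mono b hb b' hb') _)
    (fun b hb h0 z hz hdz => by
      cases b with
      | emp => exact absurd h0 (lt_irrefl _)
      | cell g k =>
        obtain ⟨x0, hx0⟩ := (hull_nonempty g.l (okK_spec hb).1).prod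
          (hull_nonempty g.r (okK_spec hb).2.1)
        have := VR_acyclic hδ ((convex_convexHull ℝ _).prod (convex_convexHull ℝ _)) hx0 _ z hz hdz
        rwa [Nat.sub_add_cancel h0] at this)
    (fun _ => single [] 1) (fun b hb h1 => by
      rw [h1]
      refine ⟨single_mem_supported F _ ⟨rfl, by simp [Small]⟩, by simp [bdL], fun g => ?_⟩
      rw [perm_apply, mapDomain_single]
      rfl) 7
  refine ⟨h, (hh .emp trivial (Nat.zero_le _)).2.2.2 rfl, fun b hb => ?_⟩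
  obtain ⟨h1, h2, h3, -⟩ := hh b hb (deg1_le b hb)
  exact ⟨VR_mono δ (car1_sub b hb) _ h1, by rw [h2, zero_add], h3⟩

/-- Index set of the complex of colourings. -/
abbrev U2 : Type := Fin 4 × Col

theorem fst_smul (h : H) (a b : U2) (hab : a.1 = b.1) : (h • a).1 = (h • b).1 := by
  rw [H_smul, H_smul, hab]

/-- Different indices have different colours. -/
def Disj (P : Finset U2) : Prop := ∀ i j c, (i, c) ∈ P → (j, c) ∈ P → i = j

/-- The colours of an index. -/
def fib (P : Finset U2) (i : Fin 4) : Finset Col := Finset.univ.filter fun c => (i, c) ∈ P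

theorem mem_fib {P : Finset U2} {i : Fin 4} {c : Col} : c ∈ fib P i ↔ (i, c) ∈ P := by simp [fib]

theorem mem_H_smul (h : H) (P : Finset U2) (i : Fin 4) (c : Col) :
    (h.1 i, c) ∈ h • P ↔ (i, c) ∈ P := Finset.smul_mem_smul_finset_iff (b := (i, c)) h

theorem Disj.smul {P : Finset U2} (hP : Disj P) (h : H) : Disj (h • P) := by
  intro i j c hi hj
  obtain ⟨i, rfl⟩ := h.1.surjective i
  obtain ⟨j, rfl⟩ := h.1.surjective j
  rw [mem_H_smul] at hi hj
  rw [hP i j c hi hj]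

variable {col : ℍ[ℝ] → Col} {ε : ℝ}

open Classical in
/-- The colours seen by a list of frames. -/
noncomputable def cellOf (col : ℍ[ℝ] → Col) (l : List (ℍ[ℝ] × ℍ[ℝ])) : Finset U2 :=
  Finset.univ.filter fun x => ∃ z ∈ l, col (fr x.1 z) = x.2

theorem mem_cellOf {l : List (ℍ[ℝ] × ℍ[ℝ])} {x : U2} :
    x ∈ cellOf col l ↔ ∃ z ∈ l, col (fr x.1 z) = x.2 := by simp [cellOf]

theorem fr_ne (i : Fin 4) {z : ℍ[ℝ] × ℍ[ℝ]} (hz : z ∈ XX) : fr i z ≠ 0 := by
  rw [← norm_pos_iff, norm_fr]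
  exact mul_pos (by linarith [hz.1.1]) (by linarith [hz.2.1])

theorem near_fr (hε : 0 < ε) (i : Fin 4) {z z' : ℍ[ℝ] × ℍ[ℝ]} (hz : z ∈ XX) (hz' : z' ∈ XX)
    (h : dist z z' < ε / 32) : Near ε (fr i z) (fr i z') := by
  have e : fr i z - fr i z' = fr i (z.1 - z'.1, z.2) + fr i (z'.1, z.2 - z'.2) := by
    simp only [fr, star_sub, sub_mul, mul_sub]
    abel
  have h1 : ‖z.1 - z'.1‖ ≤ dist z z' := by rw [← dist_eq_norm]; exact le_max_left _ _
  have h2 : ‖z.2 - z'.2‖ ≤ dist z z' := by rw [← dist_eq_norm]; exact le_max_right _ _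
  have h3 := norm_add_le (fr i (z.1 - z'.1, z.2)) (fr i (z'.1, z.2 - z'.2))
  have h4 := mul_le_mul hz'.1.1 hz'.2.1 (by norm_num) (norm_nonneg _)
  have h5 := mul_le_mul h1 hz.2.2 (norm_nonneg _) dist_nonneg
  have h6 := mul_le_mul hz'.1.2 h2 (norm_nonneg _) zero_le_one
  unfold Near
  rw [norm_fr, norm_fr] at h3
  rw [e, norm_fr]
  nlinarith

theorem cellOf_hom (h : Good col ε) {l : List (ℍ[ℝ] × ℍ[ℝ])} (hl : Small (ε / 32) XX l) :
    Disj (cellOf col l) ∧ ∀ i, Miss col (fib (cellOf col l) i) := by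
  constructor
  · intro i j c hi hj
    obtain ⟨z, hz, h1⟩ := mem_cellOf.1 hi
    obtain ⟨z', hz', h2⟩ := mem_cellOf.1 hj
    by_contra hne
    exact h.near_ne (near_fr h.pos j (hl.1 z hz) (hl.1 z' hz') (hl.2 z hz z' hz'))
      (fr_ne i (hl.1 z hz)) (inner_fr hne z) (h1.trans h2.symm)
  · intro i
    cases l with
    | nil => exact h.miss one_ne_zero fun c hc => by simpa using mem_cellOf.1 (mem_fib.1 hc)
    | cons z l =>
      refine h.miss (fr_ne i (hl.1 z (by simp))) fun c hc => ?_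
      obtain ⟨z', hz', h1⟩ := mem_cellOf.1 (mem_fib.1 hc)
      exact ⟨_, near_fr h.pos i (hl.1 z (by simp)) (hl.1 z' hz') (hl.2 z (by simp) z' hz'), h1⟩

/-- Chains of degree `n` in the complex of colourings. -/
def CH (N : Finset Col → Prop) (n : ℕ) : Submodule F (Finset U2 →₀ F) :=
  supported F F {P | (AdmP Prod.fst P ∧ Disj P) ∧ (∀ i, N (fib P i)) ∧ degP Prod.fst P = n}

theorem exists_phi2 (h : Good col ε) : ∃ φ : List (ℍ[ℝ] × ℍ[ℝ]) → (Finset U2 →₀ F),
    φ [] = single ∅ 1 ∧ ∀ l, Small (ε / 32) XX l → l.length ≤ 7 → φ l ∈ CH (Miss col) l.length ∧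
      dP Prod.fst (φ l) = lin φ (bdL l) ∧ ∀ g : G, φ (g • l) = perm H _ (piG g) (φ l) := by
  obtain ⟨φ, hh⟩ := carrier ((perm H (Finset U2)).comp piG) (dP Prod.fst)
    (fun g x => dP_perm Prod.fst fst_smul _ x) (Small (ε / 32) XX) List.length bdL
    (fun g l hl => by
      refine ⟨fun y hy => ?_, fun y hy y' hy' => ?_⟩
      · obtain ⟨x, hx, rfl⟩ := List.mem_map.1 hy
        simpa [XX, G_smul, G.norm_l, G.norm_r] using hl.1 x hx
      · obtain ⟨x, hx, rfl⟩ := List.mem_map.1 hy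
        obtain ⟨x', hx', rfl⟩ := List.mem_map.1 hy'
        rw [dist_G_smul]
        exact hl.2 x hx x' hx')
    (fun g l _ => List.length_map _)
    (fun l hl l' hl' => by
      obtain ⟨h1, h2⟩ := bdL_support hl'
      exact ⟨⟨fun x hx => hl.1 x (h2 x hx), fun x hx y hy => hl.2 x (h2 x hx) y (h2 y hy)⟩,
        by omega⟩)
    (fun g l _ => bdL_map (g • ·) l) (fun l _ => dL_bdL l)
    (fun g l hl h0 hg x => by
      cases l with
      | nil => exact absurd h0 (lt_irrefl _)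
      | cons z l =>
        have h1 : g • z = z := List.head_eq_of_cons_eq hg
        have h2 := hl.1 z (by simp)
        have h3 : g = 1 := G_ext
          (mul_right_cancel₀ (b := z.1) (norm_pos_iff.1 (by linarith [h2.1.1]))
            (by rw [G.l_one, one_mul]; exact congrArg Prod.fst h1))
          (mul_right_cancel₀ (b := z.2) (norm_pos_iff.1 (by linarith [h2.2.1]))
            (by rw [G.r_one, one_mul]; exact congrArg Prod.snd h1))
        rw [h3, map_one]
        rfl)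
    (fun _ => 0) (fun g b _ => (map_zero _).symm) (fun b _ => by rw [map_zero, lin_zero])
    (fun l => Car Prod.fst (cellOf col l) l.length)
    (fun l => Car Prod.fst (cellOf col l) (l.length - 1))
    (fun g l x _ hx => by
      rw [G_smul_list, List.length_map]
      refine Car_mono _ (fun y hy => ?_) _ (Car_smul Prod.fst fst_smul (piG g) hx)
      obtain ⟨y, hy', rfl⟩ := Finset.mem_smul_finset.1 hy
      obtain ⟨z, hz, h1⟩ := mem_cellOf.1 hy'
      refine mem_cellOf.2 ⟨g • z, List.mem_map.2 ⟨z, hz, rfl⟩, ?_⟩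
      rcases fr_smul g y.1 z with h2 | h2
      · exact (congrArg col h2).trans h1
      · exact (congrArg col h2).trans ((h.even _).trans h1))
    (fun b _ => Submodule.zero_mem _)
    (fun l _ l' hl' => by
      obtain ⟨h1, h2⟩ := bdL_support hl'
      rw [← h1]
      refine Car_mono _ (fun x hx => ?_) _
      obtain ⟨z, hz, h3⟩ := mem_cellOf.1 hx
      exact mem_cellOf.2 ⟨z, h2 z hz, h3⟩)
    (fun l _ h0 z hz hdz => by
      obtain ⟨x, hx⟩ := List.exists_mem_of_length_pos h0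
      have := Car_acyclic Prod.fst _ _
        (fun a => ⟨(a.1, col (fr a.1 x)), mem_cellOf.2 ⟨x, hx, rfl⟩, rfl⟩) z hz hdz
      rwa [Nat.sub_add_cancel h0] at this)
    (fun _ => single ∅ 1) (fun b hb h1 => by
      rw [h1]
      refine ⟨single_mem_supported F _ ⟨Or.inl rfl, Finset.empty_subset _, by simp [degP]⟩,
        by simp [bdP_empty], fun g => ?_⟩
      simp [perm_apply]) 7
  refine ⟨φ, (hh [] (by simp [Small]) (Nat.zero_le _)).2.2.2 rfl, fun l hl hl' => ?_⟩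
  obtain ⟨h1, h2, h3, -⟩ := hh l hl hl'
  refine ⟨supported_mono (fun P hP => ?_) h1, by rw [h2, zero_add], h3⟩
  obtain ⟨h4, h5⟩ := cellOf_hom h hl
  refine ⟨⟨hP.1, fun i j c hi hj => h4 i j c (hP.2.1 hi) (hP.2.1 hj)⟩, fun i => ?_, hP.2.2⟩
  obtain ⟨x, hx, h6⟩ := h5 i
  exact ⟨x, hx, fun z hz hzx hc => h6 z hz hzx (mem_fib.2 (hP.2.1 (mem_fib.1 hc)))⟩

theorem exists_Phi (h : Good col ε) : ∃ Φ : B1 → (Finset U2 →₀ F),
    Φ .emp = single ∅ 1 ∧ ∀ b, Adm1 b → Φ b ∈ CH (Miss col) (deg1 b) ∧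
      dP Prod.fst (Φ b) = lin Φ (bd1 b) ∧ ∀ g : G, Φ (g • b) = perm H _ (piG g) (Φ b) := by
  obtain ⟨φ1, a0, a1⟩ := exists_phi1 (δ := ε / 32) (by linarith [h.pos])
  obtain ⟨φ2, b0, b1⟩ := exists_phi2 h
  refine ⟨fun b => lin φ2 (φ1 b), by simp only [a0, lin_single, b0], fun b hb => ?_⟩
  obtain ⟨a2, a3, a4⟩ := a1 b hb
  have hs := fun l (hl : l ∈ (φ1 b).support) =>
    b1 l (a2 hl).2 (by rw [(a2 hl).1]; exact deg1_le b hb)
  refine ⟨lin_mem fun l hl => (a2 hl).1 ▸ (hs l hl).1, ?_, fun g => ?_⟩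
  · rw [map_lin, lin_congr fun l hl => (hs l hl).2.1, ← map_lin (lin φ2) bdL, ← map_lin, ← a3]
    rfl
  · simp only [a4]
    rw [perm_apply, lin_mapDomain, map_lin]
    exact lin_congr fun l hl => (hs l hl).2.2 g

theorem free3 (h : H) {P : Finset U2} (h1 : Valid Prod.fst P) (h2 : Disj P) (hP : h • P = P) :
    h = 1 := by
  refine Subtype.ext (Equiv.ext fun i => ?_)
  obtain ⟨⟨j, c⟩, hb, rfl⟩ := h1 (i, 0)
  exact h2 _ _ c (hP ▸ (mem_H_smul h P j c).2 hb) hb

theorem exists_psi : ∃ ψ : Finset U2 → (Finset U3 →₀ F), ψ ∅ = single ∅ 1 ∧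
    ∀ P, AdmP Prod.fst P ∧ Disj P → degP Prod.fst P ≤ 7 →
      ψ P ∈ Car pr3 Finset.univ (degP Prod.fst P) ∧ dP pr3 (ψ P) = lin ψ (bdP Prod.fst P) ∧
        ∀ g : H, ψ (g • P) = perm H _ g (ψ P) := by
  obtain ⟨ψ, hh⟩ := carrier (perm H (Finset U3)) (dP pr3) (dP_perm pr3 pr3_smul)
    (fun P : Finset U2 => AdmP Prod.fst P ∧ Disj P) (degP Prod.fst) (bdP Prod.fst)
    (fun g P hP => ⟨admP_smul _ fst_smul g hP.1, hP.2.smul g⟩) (fun g P _ => degP_smul _ g P)
    (fun P hP P' hP' => by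
      obtain ⟨h1, h2, h3⟩ := bdP_support _ hP.1 hP'
      exact ⟨⟨h1, fun i j c hi hj => hP.2 i j c (h2 hi) (h2 hj)⟩, by omega⟩)
    (fun g P _ => bdP_smul _ fst_smul g P) (fun P _ => dP_bdP _ P)
    (fun g P hP h0 hg x => by
      rw [free3 g (hP.1.resolve_left fun h => by simp [h, degP] at h0) hP.2 hg, map_one]
      rfl)
    (fun _ => 0) (fun g b _ => (map_zero _).symm) (fun b _ => by rw [map_zero, lin_zero])
    (fun P => Car pr3 Finset.univ (degP Prod.fst P))
    (fun P => Car pr3 Finset.univ (degP Prod.fst P - 1))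
    (fun g P x _ hx => by
      rw [degP_smul]
      exact Car_mono pr3 (Finset.subset_univ _) _ (Car_smul pr3 pr3_smul g hx))
    (fun b _ => Submodule.zero_mem _)
    (fun P hP P' hP' => by
      rw [← (bdP_support _ hP.1 hP').2.2]
      exact le_rfl)
    (fun P _ h0 z hz hdz => by
      have := Car_acyclic pr3 _ _ (fun a => ⟨a, Finset.mem_univ _, rfl⟩) z hz hdz
      rwa [Nat.sub_add_cancel h0] at this)
    (fun _ => single ∅ 1) (fun b hb h1 => by
      rw [h1]
      refine ⟨single_mem_supported F _ ⟨Or.inl rfl, Finset.empty_subset _, by simp [degP]⟩,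
        by simp [bdP_empty], fun g => ?_⟩
      simp [perm_apply]) 7
  refine ⟨ψ, (hh ∅ ⟨Or.inl rfl, fun _ _ _ h => by simp at h⟩ (by simp [degP])).2.2.2
    (by simp [degP]), fun P hP hP' => ?_⟩
  obtain ⟨h1, h2, h3, -⟩ := hh P hP hP'
  exact ⟨h1, by rw [h2, zero_add], h3⟩

end Vale.Agent.P052
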