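import Vale.Agent.P052.Comb

/-! Relabelling colours; one stage of the finite argument. -/

namespace Vale.Agent.P052

open Finset

variable {N : Finset Col → Prop} {a : Finset Col → Finset Col → Finset Col → Finset Col → F}

theorem Part.map {P Q R S W : Finset Col} (h : Part P Q R S W) (σ : Col ≃ Col) :
    Part (P.map σ.toEmbedding) (Q.map σ.toEmbedding) (R.map σ.toEmbedding) (S.map σ.toEmbedding)
      (W.map σ.toEmbedding) :=
  ⟨map_nonempty.2 h.n0, map_nonempty.2 h.n1, map_nonempty.2 h.n2, map_nonempty.2 h.n3,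
    (disjoint_map _).2 h.d01, (disjoint_map _).2 h.d02, (disjoint_map _).2 h.d03,
    (disjoint_map _).2 h.d12, (disjoint_map _).2 h.d13, (disjoint_map _).2 h.d23,
    by rw [← map_union, ← map_union, ← map_union, h.un]⟩

theorem Nerve.relab (hN : Nerve N) (σ : Col ≃ Col) : Nerve fun P => N (P.map σ.toEmbedding) where
  down P Q h := hN.down _ _ (map_subset_map.2 h)
  f1 P h := by simpa using hN.f1 _ h
  f2 P Q h h' := by
    have := hN.f2 _ _ h h'
    rwa [← map_union, card_map] at this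
  f3 P Q R h h' h'' hu := hN.f3 _ _ _ h h' h'' (by
    rw [← map_union, ← map_union, hu, map_univ_equiv])
  h1 S T hS hT h4 h7 e f he hf hef := by
    obtain ⟨z, hz, hz'⟩ := hN.h1 _ _ hS hT (by simpa using h4)
      (by rwa [← map_union, card_map]) (σ e) (σ f) (by rw [← map_union]; simpa using he)
      (by rw [← map_union]; simpa using hf) (by simpa using hef)
    obtain ⟨z, hz0, rfl⟩ := mem_map.1 hz
    exact ⟨z, hz0, by simpa [map_insert] using hz'⟩

theorem Cyc.relab (hC : Cyc N a) (σ : Col ≃ Col) :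
    Cyc (fun P => N (P.map σ.toEmbedding)) fun P Q R S => a (P.map σ.toEmbedding)
      (Q.map σ.toEmbedding) (R.map σ.toEmbedding) (S.map σ.toEmbedding) where
  supp _ _ _ _ h := hC.supp _ _ _ _ h
  sym1 _ _ _ _ := hC.sym1 _ _ _ _
  sym2 _ _ _ _ := hC.sym2 _ _ _ _
  cyc k P Q R S h := by
    have := hC.cyc (σ k) _ _ _ _ (by
      have := h.map σ
      rwa [map_erase, map_univ_equiv] at this)
    simpa only [map_insert, Equiv.coe_toEmbedding] using this

theorem HZ.relab {Z : List ℕ} (hZ : HZ a Z) (σ : Col ≃ Col) :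
    HZ (fun P Q R S => a (P.map σ.toEmbedding) (Q.map σ.toEmbedding) (R.map σ.toEmbedding)
      (S.map σ.toEmbedding)) Z := by
  intro P Q R S h hd
  refine hZ _ _ _ _ ?_ (by simpa using hd)
  have := h.map σ
  rwa [map_univ_equiv] at this

/-- The index of the part containing a colour. -/
def idx (P Q R : Finset Col) (c : Col) : Fin 4 :=
  if c ∈ P then 0 else if c ∈ Q then 1 else if c ∈ R then 2 else 3

theorem Part.idx_eq {P Q R S : Finset Col} (h : Part P Q R S univ) (c : Col) (i : Fin 4) :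
    idx P Q R c = i ↔ c ∈ ![P, Q, R, S] i := by
  have hu : c ∈ P ∪ Q ∪ R ∪ S := by rw [h.un]; simp
  simp only [mem_union] at hu
  have d01 : c ∈ P → c ∉ Q := fun hc => disjoint_left.1 h.d01 hc
  have d02 : c ∈ P → c ∉ R := fun hc => disjoint_left.1 h.d02 hc
  have d03 : c ∈ P → c ∉ S := fun hc => disjoint_left.1 h.d03 hc
  have d12 : c ∈ Q → c ∉ R := fun hc => disjoint_left.1 h.d12 hc
  have d13 : c ∈ Q → c ∉ S := fun hc => disjoint_left.1 h.d13 hc
  have d23 : c ∈ R → c ∉ S := fun hc => disjoint_left.1 h.d23 hc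
  unfold idx
  fin_cases i <;> split_ifs <;> simp <;> tauto

theorem exists_relab {P Q R S P' Q' R' S' : Finset Col} (h : Part P Q R S univ)
    (h' : Part P' Q' R' S' univ) (e0 : P.card = P'.card) (e1 : Q.card = Q'.card)
    (e2 : R.card = R'.card) (e3 : S.card = S'.card) : ∃ σ : Col ≃ Col,
      P.map σ.toEmbedding = P' ∧ Q.map σ.toEmbedding = Q' ∧ R.map σ.toEmbedding = R' ∧
        S.map σ.toEmbedding = S' := by
  have hc : ∀ i : Fin 4, Fintype.card {c // idx P Q R c = i} =
      Fintype.card {c // idx P' Q' R' c = i} := by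
    intro i
    simp only [Fintype.card_subtype, h.idx_eq, h'.idx_eq, filter_mem_eq_inter, univ_inter]
    fin_cases i <;> assumption
  let σ : Col ≃ Col := Equiv.ofFiberEquiv fun i => Fintype.equivOfCardEq (hc i)
  have hσ : ∀ c, idx P' Q' R' (σ c) = idx P Q R c := fun c => Equiv.ofFiberEquiv_map _ c
  have key : ∀ i : Fin 4, (![P, Q, R, S] i).map σ.toEmbedding = ![P', Q', R', S'] i := by
    intro i
    ext c
    rw [mem_map_equiv, ← h.idx_eq, ← h'.idx_eq, ← hσ, Equiv.apply_symm_apply]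
  exact ⟨σ, key 0, key 1, key 2, key 3⟩

theorem hz_nil (hN : Nerve N) (hC : Cyc N a) : HZ a [] := by
  intro P Q R S h hd
  by_contra hne
  obtain ⟨h0, h1, h2, h3⟩ := hC.supp _ _ _ _ hne
  have a0 := hN.f1 _ h0
  have a1 := hN.f1 _ h1
  have a2 := hN.f1 _ h2
  have a3 := hN.f1 _ h3
  have b01 := hN.f2 _ _ h0 h1
  have b02 := hN.f2 _ _ h0 h2
  have b03 := hN.f2 _ _ h0 h3
  have b12 := hN.f2 _ _ h1 h2
  have b13 := hN.f2 _ _ h1 h3
  have b23 := hN.f2 _ _ h2 h3
  rw [card_union_of_disjoint h.d01] at b01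
  rw [card_union_of_disjoint h.d02] at b02
  rw [card_union_of_disjoint h.d03] at b03
  rw [card_union_of_disjoint h.d12] at b12
  rw [card_union_of_disjoint h.d13] at b13
  rw [card_union_of_disjoint h.d23] at b23
  simp only [dead, memL_iff, Bool.or_eq_true, Nat.ble_eq, List.not_mem_nil, or_false] at hd
  omega

/-- The test for one stage. -/
noncomputable def stageB (x y z w : ℕ) (T : Tr) (n : ℕ) : Bool :=
  Nat.ble x 1023 && Nat.ble y 1023 && Nat.ble z 1023 && Nat.ble w 1023 && partB x y z w 1023 &&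
    Nat.ble (pop x) 7 && Nat.ble (pop y) 7 && Nat.ble (pop z) 7 &&
    decide (clauseNo T 0 = [4 * canon x y z w + 2]) && decide (clauseNo T n = [])

theorem stage (hN : Nerve N) (hC : Cyc N a) {Z : List ℕ} (hZ : HZ a Z) {x y z w : ℕ}
    {T : Tr} {lines : List ℕ} (h : stageB x y z w T lines.length = true)
    (hck : check Z T lines 1 = true) :
    HZ a ((pop x + 8 * (pop y + 8 * (pop z + 8 * pop w))) :: Z) := by
  simp only [stageB, Bool.and_eq_true, Nat.ble_eq, decide_eq_true_eq] at h
  obtain ⟨⟨⟨⟨⟨⟨⟨⟨⟨hx, hy⟩, hz⟩, hw⟩, hp⟩, px⟩, py⟩, pz⟩, c0⟩, c1⟩ := h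
  replace hx : x < 1024 := by omega
  replace hy : y < 1024 := by omega
  replace hz : z < 1024 := by omega
  replace hw : w < 1024 := by omega
  intro P Q R S hP hd
  by_cases hd' : dead Z P.card Q.card R.card S.card = true
  · exact hZ _ _ _ _ hP hd'
  simp only [dead, memL_iff, Bool.or_eq_true, Nat.ble_eq, List.mem_cons] at hd hd'
  have hp' := partB_sound hx hy hz hw hp
  rw [decM_full] at hp'
  have hcode : P.card + 8 * (Q.card + 8 * (R.card + 8 * S.card)) =
    pop x + 8 * (pop y + 8 * (pop z + 8 * pop w)) := by tauto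
  have h5 : P.card < 5 ∧ Q.card < 5 ∧ R.card < 5 := by omega
  obtain ⟨σ, s0, s1, s2, s3⟩ := exists_relab hp' hP (by rw [card_decM x hx]; omega)
    (by rw [card_decM y hy]; omega) (by rw [card_decM z hz]; omega) (by rw [card_decM w hw]; omega)
  by_contra hne
  have := check_sound (hN.relab σ) (hC.relab σ) (hZ.relab σ) T lines 1 hck (fun i hi => by
    rw [show i = 0 by omega, c0]
    refine ⟨_, List.mem_singleton_self _, (holds_A (hC.relab σ) hx hy hz hw).2 ?_⟩
    rwa [s0, s1, s2, s3]) lines.length (by omega)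
  rw [c1] at this
  obtain ⟨l, hl, -⟩ := this
  exact absurd hl List.not_mem_nil

/-- The test for a list of stages, ending when every size vector is dead. -/
noncomputable def stagesB (L : List (ℕ × ℕ × ℕ × ℕ × Tr × List ℕ)) : List ℕ → Bool :=
  List.rec (fun Z => (List.range 11).all fun p => (List.range 11).all fun q =>
      (List.range 11).all fun r => (List.range 11).all fun s =>
        !(Nat.beq (p + q + r + s) 10) || dead Z p q r s || Nat.beq (p * q * r * s) 0)
    (fun t _ ih Z => stageB t.1 t.2.1 t.2.2.1 t.2.2.2.1 t.2.2.2.2.1 t.2.2.2.2.2.length &&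
      check Z t.2.2.2.2.1 t.2.2.2.2.2 1 && ih ((pop t.1 + 8 * (pop t.2.1 + 8 * (pop t.2.2.1 + 8 * pop t.2.2.2.1))) :: Z)) L

theorem stages (hN : Nerve N) (hC : Cyc N a) (L : List (ℕ × ℕ × ℕ × ℕ × Tr × List ℕ))
    {Z : List ℕ} (hZ : HZ a Z) (h : stagesB L Z = true) {P Q R S : Finset Col}
    (hP : Part P Q R S univ) : a P Q R S = 0 := by
  induction L generalizing Z with
  | nil =>
    have hs : P.card + Q.card + R.card + S.card = 10 := by
      rw [← card_union_of_disjoint hP.d01, ← card_union_of_disjoint (by simp [hP.d02, hP.d12]),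
        ← card_union_of_disjoint (by simp [hP.d03, hP.d13, hP.d23]), hP.un]
      rfl
    simp only [stagesB, List.all_eq_true, List.mem_range, Bool.or_eq_true, Bool.not_eq_true',
      Nat.beq_eq] at h
    rcases h P.card (by omega) Q.card (by omega) R.card (by omega) S.card (by omega) with
      (h | h) | h
    · exact absurd hs (Nat.ne_of_beq_eq_false h)
    · exact hZ _ _ _ _ hP h
    · simp [hP.n0.ne_empty, hP.n1.ne_empty, hP.n2.ne_empty, hP.n3.ne_empty] at h
  | cons t L ih =>
    have e : stagesB (t :: L) Z = (stageB t.1 t.2.1 t.2.2.1 t.2.2.2.1 t.2.2.2.2.1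
      t.2.2.2.2.2.length && check Z t.2.2.2.2.1 t.2.2.2.2.2 1 && stagesB L ((pop t.1 + 8 * (pop t.2.1 + 8 * (pop t.2.2.1 + 8 * pop t.2.2.2.1))) :: Z)) := rfl
    rw [e, Bool.and_eq_true, Bool.and_eq_true] at h
    exact ih (stage hN hC hZ h.1.1 h.1.2) h.2

end Vale.Agent.P052
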