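import Vale.Agent.P052.Grp
import Vale.Agent.P052.TabData

/-! Checking the tables. -/

namespace Vale.Agent.P052

open Finsupp Pointwise

/-- Unpacking a list. -/
noncomputable def unp (fuel : ℕ) : ℕ → List ℕ → List ℕ :=
  Nat.rec (fun _ acc => acc) (fun _ ih x acc => Bool.rec (force (x % 1048576 - 1) fun l =>
    force (x / 1048576) fun x' => ih x' (l :: acc)) acc (Nat.beq x 0)) fuel

/-- Vertices of the first factor. -/
noncomputable def sig (k : ℕ) : List ℕ := unp 9 (trK.get (k % 18)) []

/-- Vertices of the second factor. -/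
noncomputable def tau (k : ℕ) : List ℕ := unp 9 (trK.get (k / 18)) []

/-- Faces. -/
noncomputable def fcs (k : ℕ) : List ℕ := unp 9 (trF.get k) []

/-- Cells of the image. -/
noncomputable def cel (k : ℕ) : List ℕ := unp 30 (trT.get k) []

/-- Degree. -/
noncomputable def dg (k : ℕ) : ℕ := (sig k).length + (tau k).length - 1

/-- Adding an element modulo two. -/
noncomputable def tog (x : ℕ) (l : List ℕ) : List ℕ :=
  List.rec [x] (fun y t ih => Bool.rec (y :: ih) t (Nat.beq x y)) l

/-- Reducing a list modulo two. -/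
noncomputable def togL (l : List ℕ) : List ℕ :=
  List.rec [] (fun x _ ih => force x fun x => tog x ih) l

theorem sum_tog {D : Type} [AddCommGroup D] [Module F D] (f : ℕ → D) (x : ℕ) (l : List ℕ) :
    ((tog x l).map f).sum = f x + (l.map f).sum := by
  induction l with
  | nil => rfl
  | cons y t ih =>
    have e : tog x (y :: t) = Bool.rec (y :: tog x t) t (Nat.beq x y) := rfl
    rw [e]
    cases h : Nat.beq x y
    · simp only [List.map_cons, List.sum_cons, ih]
      abel
    · rw [Nat.eq_of_beq_eq_true h, List.map_cons, List.sum_cons, ← add_assoc, add_self', zero_add]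

theorem sum_togL {D : Type} [AddCommGroup D] [Module F D] (f : ℕ → D) (l : List ℕ) :
    ((togL l).map f).sum = (l.map f).sum := by
  induction l with
  | nil => rfl
  | cons x t ih =>
    have e : togL (x :: t) = tog x (togL t) := force_eq x fun x => tog x (togL t)
    rw [e, sum_tog, ih, List.map_cons, List.sum_cons]

/-- Index set of the cube complex. -/
abbrev U3 : Type := Fin 4 × Fin 3

/-- The factors of the cube. -/
def pr3 (x : U3) : ℕ × Fin 3 := (x.1.val / 2, x.2)

theorem pr3_smul (h : H) (a b : U3) (hab : pr3 a = pr3 b) : pr3 (h • a) = pr3 (h • b) := by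
  simp only [pr3, H_smul, Prod.mk.injEq] at *
  exact ⟨(h.2 _ _).2 hab.1, hab.2⟩

/-- The cell with a given code. -/
def dec3 (m : ℕ) : Finset U3 := Finset.univ.filter fun x => m.testBit (4 * x.2.val + x.1.val)

theorem mem_dec3 (m : ℕ) (x : U3) : x ∈ dec3 m ↔ m.testBit (4 * x.2.val + x.1.val) := by
  simp [dec3]

theorem sum_U3 {M : Type} [AddCommMonoid M] (f : ℕ → M) :
    ∑ x : U3, f (4 * x.2.val + x.1.val) = ((List.range 12).map f).sum := by
  simp only [Fintype.sum_prod_type, Fin.sum_univ_four, Fin.sum_univ_three, List.range_succ,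
    List.range_zero, List.nil_append, List.cons_append, List.map_cons, List.map_nil,
    List.sum_cons, List.sum_nil, Fin.coe_ofNat_eq_mod, Nat.reduceMod, Nat.reduceMul,
    Nat.reduceAdd]
  abel

/-- The number of elements of a cell. -/
def pop12 (m : ℕ) : ℕ := ((List.range 12).map fun b => if m.testBit b then 1 else 0).sum

theorem card_dec3 (m : ℕ) : (dec3 m).card = pop12 m := by
  rw [dec3, Finset.card_filter, pop12, ← sum_U3]

/-- Removable positions. -/
def remC (m b : ℕ) : Bool := m.testBit b && m.testBit (b ^^^ 1)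

/-- Test for a valid cell. -/
def validC (m : ℕ) : Bool := (List.range 12).all fun b => m.testBit b || m.testBit (b ^^^ 1)

/-- Codes of faces. -/
def facesC (m : ℕ) : List ℕ :=
  ((List.range 12).filter (remC m)).map (fun b => m ^^^ 2 ^ b) ++
    if (List.range 12).any (remC m) then [] else [0]

theorem partner : ∀ a : U3, ∃ a' : U3, a' ≠ a ∧ pr3 a' = pr3 a ∧
    4 * a'.2.val + a'.1.val = (4 * a.2.val + a.1.val) ^^^ 1 ∧
      ∀ b, b ≠ a → pr3 b = pr3 a → b = a' := by decide +kernel

theorem rem_dec3 (m : ℕ) (a : U3) :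
    Rem pr3 (dec3 m) a ↔ remC m (4 * a.2.val + a.1.val) = true := by
  obtain ⟨a', h1, h2, h3, h4⟩ := partner a
  rw [Rem, remC, Bool.and_eq_true, mem_dec3, ← h3, ← mem_dec3 m a']
  refine and_congr_right fun _ => ⟨?_, fun h => ⟨a', h, h1, h2⟩⟩
  rintro ⟨b, hb, h5, h6⟩
  rwa [← h4 b h5 h6]

theorem valid_dec3 {m : ℕ} (h : validC m = true) : Valid pr3 (dec3 m) := by
  intro a
  obtain ⟨a', h1, h2, h3, h4⟩ := partner a
  have := List.all_eq_true.1 h (4 * a.2.val + a.1.val) (List.mem_range.2 (by omega))
  rw [Bool.or_eq_true, ← h3, ← mem_dec3, ← mem_dec3] at this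
  rcases this with h | h
  · exact ⟨a, h, rfl⟩
  · exact ⟨a', h, h2⟩

theorem erase_dec3 {m : ℕ} {a : U3} (h : a ∈ dec3 m) :
    (dec3 m).erase a = dec3 (m ^^^ 2 ^ (4 * a.2.val + a.1.val)) := by
  ext x
  rw [Finset.mem_erase, mem_dec3, mem_dec3, Nat.testBit_xor, Nat.testBit_two_pow]
  rw [mem_dec3] at h
  by_cases hx : x = a
  · simp [hx, h]
  · have : 4 * a.2.val + a.1.val ≠ 4 * x.2.val + x.1.val := fun h' => hx (by
      ext <;> omega)
    simp [hx, this]

theorem sum_filter_map {M : Type} [AddCommMonoid M] (p : ℕ → Bool) (f : ℕ → M) (l : List ℕ) :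
    ((l.filter p).map f).sum = (l.map fun b => if p b then f b else 0).sum := by
  induction l with
  | nil => rfl
  | cons x l ih => cases h : p x <;> simp [h, ih]

theorem dec3_zero : dec3 0 = ∅ := by simp [dec3]

theorem bdP_dec3 {m : ℕ} (h : validC m = true) :
    bdP pr3 (dec3 m) = ((facesC m).map fun m' => single (dec3 m') (1 : F)).sum := by
  rw [bdP, facesC, List.map_append, List.sum_append, List.map_map, sum_filter_map, ← sum_U3]
  refine congrArg₂ (· + ·) ?_ ?_
  · refine Finset.sum_congr rfl fun a _ => ?_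
    simp only [rem_dec3]
    split_ifs with ha
    · rw [erase_dec3 ((rem_dec3 m a).2 ha).1]
      rfl
    · rfl
  · have hne : (dec3 m).Nonempty := by
      obtain ⟨b, hb, -⟩ := valid_dec3 h (0, 0)
      exact ⟨b, hb⟩
    by_cases hv : (List.range 12).any (remC m) = true
    · rw [if_pos hv, if_neg]
      · rfl
      · rintro ⟨-, h2⟩
        obtain ⟨b, hb, hb'⟩ := List.any_eq_true.1 hv
        have hb'' := List.mem_range.1 hb
        refine h2 (⟨b % 4, by omega⟩, ⟨b / 4, by omega⟩) ((rem_dec3 _ _).2 ?_)
        rwa [Nat.div_add_mod]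
    · rw [if_neg hv, if_pos]
      · simp [dec3_zero]
      · exact ⟨hne, fun a ha => hv (List.any_eq_true.2
          ⟨_, List.mem_range.2 (by omega), (rem_dec3 _ _).1 ha⟩)⟩

theorem degP_dec3 {m : ℕ} (h : validC m = true) : degP pr3 (dec3 m) = pop12 m - 5 := by
  obtain ⟨b, hb, -⟩ := valid_dec3 h (0, 0)
  have : (Finset.univ.image pr3).card = 6 := by decide +kernel
  rw [degP, if_neg (Finset.ne_empty_of_mem hb), this, card_dec3]
  omega

/-- The action on codes of cells. -/
noncomputable def actL (c m : ℕ) (l : List ℕ) : ℕ :=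
  List.rec 0 (fun b _ ih => cond (m.testBit b) (ih ||| 2 ^ (4 * (b / 4) + piC c (b % 4))) ih) l

theorem testBit_actL (c m n : ℕ) (l : List ℕ) : (actL c m l).testBit n = true ↔
    ∃ b ∈ l, m.testBit b = true ∧ 4 * (b / 4) + piC c (b % 4) = n := by
  induction l with
  | nil => simp [actL]
  | cons b l ih =>
    have e : actL c m (b :: l) =
      cond (m.testBit b) (actL c m l ||| 2 ^ (4 * (b / 4) + piC c (b % 4))) (actL c m l) := rfl
    rw [e]
    cases h : m.testBit b
    · simp [h, ih]
    · simp [h, ih, Nat.testBit_two_pow, or_comm]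

theorem smul_dec3 {c : ℕ} (hc : okc c = true) (m : ℕ) :
    piG (el c) • dec3 m = dec3 (actL c m (List.range 12)) := by
  have h := (el_spec hc).2.2
  ext x
  rw [Finset.mem_smul_finset, mem_dec3, testBit_actL]
  constructor
  · rintro ⟨y, hy, rfl⟩
    refine ⟨_, List.mem_range.2 (by omega), (mem_dec3 _ _).1 hy, ?_⟩
    rw [H_smul, h]
    dsimp only
    congr 2 <;> omega
  · rintro ⟨b, hb, h1, h2⟩
    have hb' := List.mem_range.1 hb
    refine ⟨(⟨b % 4, by omega⟩, ⟨b / 4, by omega⟩), (mem_dec3 _ _).2 (by rwa [Nat.div_add_mod]), ?_⟩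
    have h3 := h ⟨b % 4, by omega⟩
    have h4 := ((piG (el c)).1 ⟨b % 4, by omega⟩).2
    rw [H_smul]
    ext
    · simp only at h3 ⊢
      omega
    · simp only at h3 ⊢
      omega

/-- Test for a simplex. -/
noncomputable def okS (l : List ℕ) : Bool :=
  Nat.ble 1 l.length && Nat.ble l.length 4 && l.all fun a => Nat.ble a 15 && l.all (adjc a)

/-- Test for a face. -/
noncomputable def okF (k f : ℕ) : Bool :=
  okc (f % 256) && Nat.ble (f / 256) 647 && Nat.beq (dg (f / 256) + 1) (dg k) &&
    (sig (f / 256)).all (fun v => memL (mulc (f % 256 % 16) v) (sig k)) &&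
    (tau (f / 256)).all (fun v => memL (mulc (f % 256 / 16) v) (tau k))

/-- Codes of faces of faces. -/
noncomputable def ff (k : ℕ) : List ℕ :=
  (fcs k).flatMap fun f => (fcs (f / 256)).map
    (fun f' => mulG (f % 256) (f' % 256) + 256 * (f' / 256) + 1) ++
      if dg (f / 256) = 1 then [0] else []

/-- Codes in the chain map condition. -/
noncomputable def cc (k : ℕ) : List ℕ :=
  (cel k).flatMap facesC ++ ((fcs k).flatMap (fun f => (cel (f / 256)).map
    fun m => actL (f % 256) m (List.range 12)) ++ if dg k = 1 then [0] else [])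

/-- The test for one cell. -/
noncomputable def okK (k : ℕ) : Bool :=
  okS (sig k) && okS (tau k) && (fcs k).all (okF k) && (togL (ff k)).isEmpty &&
    (cel k).all (fun m => validC m && Nat.beq (pop12 m) (dg k + 5)) && (togL (cc k)).isEmpty

/-- The top cells. -/
def R6 : List ℕ := [266, 267, 268, 269, 284, 285, 286, 287, 302, 303, 304, 305, 320, 321, 322, 323,
  590, 591, 592, 593, 608, 609, 610, 611, 626, 627, 628, 629, 644, 645, 646, 647]

theorem ok_R6 : (R6.all fun k => Nat.ble k 647 && Nat.beq (dg k) 7) = true ∧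
    togL (R6.flatMap fun k => (fcs k).map (· / 256)) = [] ∧ togL (R6.flatMap cel) = [4095] := by
  decide +kernel

theorem ok_1 : (List.range' 0 216).all okK = true := by decide +kernel
theorem ok_2 : (List.range' 216 108).all okK = true := by decide +kernel
theorem ok_3 : (List.range' 324 216).all okK = true := by decide +kernel
theorem ok_4 : (List.range' 540 108).all okK = true := by decide +kernel

theorem ok_all {k : ℕ} (hk : k < 648) : okK k = true := by
  by_cases h1 : k < 216
  · exact List.all_eq_true.1 ok_1 k (List.mem_range'_1.2 (by omega))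
  by_cases h2 : k < 324
  · exact List.all_eq_true.1 ok_2 k (List.mem_range'_1.2 (by omega))
  by_cases h3 : k < 540
  · exact List.all_eq_true.1 ok_3 k (List.mem_range'_1.2 (by omega))
  · exact List.all_eq_true.1 ok_4 k (List.mem_range'_1.2 (by omega))

end Vale.Agent.P052
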