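import Vale.Agent.P052.Carrier

/-! The chain complex of finite lists of points, and its acyclicity on convex sets. -/

namespace Vale.Agent.P052

open Finsupp

variable {X Y : Type}

/-- The cone operator. -/
noncomputable def cone (x : X) : (List X →₀ F) →ₗ[F] (List X →₀ F) :=
  lmapDomain F F (List.cons x)

/-- The boundary of a list. -/
noncomputable def bdL : List X → (List X →₀ F)
  | [] => 0
  | x :: l => single l 1 + cone x (bdL l)

/-- The boundary operator. -/
noncomputable def dL : (List X →₀ F) →ₗ[F] (List X →₀ F) := lin bdL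

/-- The map induced by a map of points. -/
noncomputable def mapL (f : X → Y) : (List X →₀ F) →ₗ[F] (List Y →₀ F) :=
  lmapDomain F F (List.map f)

@[simp] theorem cone_single (x : X) (l : List X) (c : F) :
    cone x (single l c) = single (x :: l) c := by simp [cone]

@[simp] theorem mapL_single (f : X → Y) (l : List X) (c : F) :
    mapL f (single l c) = single (l.map f) c := by simp [mapL]

@[simp] theorem dL_single (l : List X) : dL (single l 1) = bdL l := lin_single _ _

theorem basis_ext {B D : Type} [AddCommGroup D] [Module F D] {L L' : (B →₀ F) →ₗ[F] D}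
    (h : ∀ b, L (single b 1) = L' (single b 1)) (z : B →₀ F) : L z = L' z := by
  have : L = L' := by
    ext1 b
    ext1
    simpa using h b
  rw [this]

theorem dL_cone (x : X) (z : List X →₀ F) : dL (cone x z) = z + cone x (dL z) :=
  basis_ext (L := dL ∘ₗ cone x) (L' := LinearMap.id + cone x ∘ₗ dL)
    (fun l => by simp [bdL]) z

theorem dL_bdL (l : List X) : dL (bdL l) = 0 := by
  induction l with
  | nil => simp [bdL]
  | cons x l ih => rw [bdL, map_add, dL_single, dL_cone, ih, map_zero, add_zero, add_self']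

theorem dL_dL (z : List X →₀ F) : dL (dL z) = 0 :=
  basis_ext (L := dL ∘ₗ dL) (L' := 0) (fun l => by simp [dL_bdL]) z

theorem mapL_cone (f : X → Y) (x : X) (z : List X →₀ F) :
    mapL f (cone x z) = cone (f x) (mapL f z) :=
  basis_ext (L := mapL f ∘ₗ cone x) (L' := cone (f x) ∘ₗ mapL f) (fun l => by simp) z

theorem bdL_map (f : X → Y) (l : List X) : bdL (l.map f) = mapL f (bdL l) := by
  induction l with
  | nil => simp [bdL]
  | cons x l ih => rw [List.map_cons, bdL, bdL, map_add, mapL_single, mapL_cone, ih]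

theorem dL_mapL (f : X → Y) (z : List X →₀ F) : dL (mapL f z) = mapL f (dL z) :=
  basis_ext (L := dL ∘ₗ mapL f) (L' := mapL f ∘ₗ dL) (fun l => by simp [bdL_map]) z

theorem map_mem_supported {B B' : Type} (L : (B →₀ F) →ₗ[F] (B' →₀ F)) {s : Set B} {t : Set B'}
    (h : ∀ b ∈ s, L (single b 1) ∈ supported F F t) {z : B →₀ F} (hz : z ∈ supported F F s) :
    L z ∈ supported F F t := by
  rw [← lin_single_eq z, map_lin]
  exact lin_mem fun b hb => h b (hz hb)

/-- Lists of length `n` with entries in `S`. -/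
def sup (S : Set X) (n : ℕ) : Submodule F (List X →₀ F) :=
  supported F F {l | l.length = n ∧ ∀ x ∈ l, x ∈ S}

theorem sup_mono {S S' : Set X} (h : S ⊆ S') (n : ℕ) : sup S n ≤ sup S' n :=
  supported_mono fun _ hl => ⟨hl.1, fun x hx => h (hl.2 x hx)⟩

theorem cone_mem_sup {S : Set X} {n : ℕ} {x : X} (hx : x ∈ S) {z : List X →₀ F}
    (hz : z ∈ sup S n) : cone x z ∈ sup S (n + 1) := by
  refine map_mem_supported _ (fun l hl => ?_) hz
  rw [cone_single]
  refine single_mem_supported F _ ⟨by simp [hl.1], ?_⟩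
  intro y hy
  rcases List.mem_cons.1 hy with rfl | hy
  · exact hx
  · exact hl.2 y hy

theorem bdL_mem_sup (l : List X) : bdL l ∈ sup {x | x ∈ l} (l.length - 1) := by
  induction l with
  | nil => simp [bdL]
  | cons x l ih =>
    rw [bdL]
    refine Submodule.add_mem _ (single_mem_supported F _ ⟨by simp, fun y hy => by simp [hy]⟩) ?_
    cases l with
    | nil => simp [bdL]
    | cons y l =>
      exact cone_mem_sup (by simp) (sup_mono (fun z hz => List.mem_cons_of_mem _ hz) _ ih)

theorem bdL_support {l l' : List X} (h : l' ∈ (bdL l).support) :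
    l'.length + 1 = l.length ∧ ∀ x ∈ l', x ∈ l := by
  have := bdL_mem_sup l h
  refine ⟨?_, this.2⟩
  cases l with
  | nil => simp [bdL] at h
  | cons x l => simpa using this.1

/-- The prism operator. -/
noncomputable def prism (f g : X → Y) : List X → (List Y →₀ F)
  | [] => 0
  | x :: l => cone (f x) (single ((x :: l).map g) 1) + cone (f x) (prism f g l)

theorem prism_cone (f g : X → Y) (x : X) (z : List X →₀ F) :
    lin (prism f g) (cone x z) =
      cone (f x) (cone (g x) (mapL g z)) + cone (f x) (lin (prism f g) z) :=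
  basis_ext (L := lin (prism f g) ∘ₗ cone x)
    (L' := cone (f x) ∘ₗ cone (g x) ∘ₗ mapL g + cone (f x) ∘ₗ lin (prism f g))
    (fun l => by simp [prism]) z

theorem dL_prism (f g : X → Y) (l : List X) :
    dL (prism f g l) = single (l.map f) 1 + single (l.map g) 1 + lin (prism f g) (bdL l) := by
  induction l with
  | nil => simp [prism, bdL, add_self']
  | cons x l ih =>
    rw [prism, map_add, dL_cone, dL_cone, ih, dL_single, List.map_cons, List.map_cons, bdL, bdL,
      map_add, map_add, map_add, map_add, lin_single, prism_cone, bdL_map]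
    simp only [cone_single]
    have := add_self' (single (f x :: List.map g l) (1 : F))
    linear_combination (norm := abel) this

theorem prism_mem (f g : X → Y) (S : Set Y) (l : List X) (h : ∀ x ∈ l, f x ∈ S ∧ g x ∈ S) :
    prism f g l ∈ sup S (l.length + 1) := by
  induction l with
  | nil => simp [prism]
  | cons x l ih =>
    rw [prism]
    refine Submodule.add_mem _ (cone_mem_sup (h x (by simp)).1 (single_mem_supported F _
      ⟨by simp, ?_⟩)) (cone_mem_sup (h x (by simp)).1 (ih fun y hy => h y (by simp [hy])))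
    intro y hy
    obtain ⟨x', hx', rfl⟩ := List.mem_map.1 hy
    exact (h x' hx').2

theorem dL_lin_prism (f g : X → Y) (z : List X →₀ F) :
    dL (lin (prism f g) z) = mapL f z + mapL g z + lin (prism f g) (dL z) :=
  basis_ext (L := dL ∘ₗ lin (prism f g)) (L' := mapL f + mapL g + lin (prism f g) ∘ₗ dL)
    (fun l => by simp [dL_prism]) z

variable {E : Type} [NormedAddCommGroup E] [NormedSpace ℝ E]

/-- Lists of points of `K` with pairwise distances below `δ`. -/
def Small (δ : ℝ) (K : Set E) (l : List E) : Prop :=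
  (∀ x ∈ l, x ∈ K) ∧ ∀ x ∈ l, ∀ y ∈ l, dist x y < δ

/-- Chains of small lists of length `n`. -/
def VR (δ : ℝ) (K : Set E) (n : ℕ) : Submodule F (List E →₀ F) :=
  supported F F {l | l.length = n ∧ Small δ K l}

omit [NormedSpace ℝ E] in
theorem VR_mono (δ : ℝ) {K K' : Set E} (h : K ⊆ K') (n : ℕ) : VR δ K n ≤ VR δ K' n :=
  supported_mono fun _ hl => ⟨hl.1, fun x hx => h (hl.2.1 x hx), hl.2.2⟩

omit [NormedSpace ℝ E] in
theorem sup_le_VR {δ : ℝ} {K S : Set E} (h1 : S ⊆ K) (h2 : ∀ x ∈ S, ∀ y ∈ S, dist x y < δ)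
    (n : ℕ) : sup S n ≤ VR δ K n :=
  supported_mono fun _ hl => ⟨hl.1, fun x hx => h1 (hl.2 x hx),
    fun x hx y hy => h2 x (hl.2 x hx) y (hl.2 y hy)⟩

theorem VR_acyclic {δ : ℝ} (hδ : 0 < δ) {K : Set E} (hK : Convex ℝ K) {x0 : E} (hx0 : x0 ∈ K)
    (n : ℕ) (z : List E →₀ F) (hz : z ∈ VR δ K n) (hd : dL z = 0) :
    ∃ c ∈ VR δ K (n + 1), dL c = z := by
  classical
  have hev : ∀ᶠ M : ℕ in Filter.atTop, 0 < M ∧ ∀ l ∈ z.support, ∀ x ∈ l.toFinset,
      ∀ y ∈ l.toFinset, dist x y + ‖y - x0‖ / M < δ := by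
    refine (Filter.eventually_gt_atTop 0).and ?_
    simp only [Filter.eventually_all_finset]
    intro l hl x hx y hy
    have h1 : dist x y < δ :=
      (hz hl).2.2 x (List.mem_toFinset.1 hx) y (List.mem_toFinset.1 hy)
    have h2 : Filter.Tendsto (fun M : ℕ => dist x y + ‖y - x0‖ / M) Filter.atTop
        (nhds (dist x y + 0)) :=
      tendsto_const_nhds.add (tendsto_const_div_atTop_nhds_zero_nat _)
    exact h2.eventually (gt_mem_nhds (by simpa using h1))
  obtain ⟨M, hM, hMδ⟩ := hev.exists
  have hM' : (0 : ℝ) < M := by exact_mod_cast hM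
  let h : ℕ → E → E := fun j x => x0 + ((j : ℝ) / M) • (x - x0)
  have hmem : ∀ j ≤ M, ∀ x ∈ K, h j x ∈ K := by
    intro j hj x hx
    refine hK.add_smul_sub_mem hx0 hx ⟨by positivity, ?_⟩
    rw [div_le_one hM']
    exact_mod_cast hj
  have hdist : ∀ j j' : ℕ, j ≤ M → j' ≤ M → (j' = j ∨ j' = j + 1) → ∀ x y,
      dist (h j x) (h j' y) ≤ dist x y + ‖y - x0‖ / M := by
    intro j j' hj hj' hjj x y
    have e : h j x - h j' y = ((j : ℝ) / M) • (x - y) - (((j' : ℝ) - j) / M) • (y - x0) := by
      simp only [h]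
      module
    have h1 : |(j : ℝ) / M| ≤ 1 := by
      rw [abs_of_nonneg (by positivity), div_le_one hM']
      exact_mod_cast hj
    have h2 : |((j' : ℝ) - j) / M| ≤ 1 / M := by
      rcases hjj with rfl | rfl
      · simp
      · simp [abs_of_pos hM']
    rw [dist_eq_norm, dist_eq_norm, e]
    refine (norm_sub_le _ _).trans (add_le_add ?_ ?_)
    · rw [norm_smul, Real.norm_eq_abs]
      exact mul_le_of_le_one_left (norm_nonneg _) h1
    · rw [norm_smul, Real.norm_eq_abs, div_eq_mul_one_div ‖y - x0‖, mul_comm ‖y - x0‖]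
      exact mul_le_mul_of_nonneg_right h2 (norm_nonneg _)
  have key : ∀ j ≤ M, ∃ c ∈ VR δ K (n + 1), dL c = mapL (h j) z := by
    intro j
    induction j with
    | zero =>
      intro _
      have h1 : mapL (h 0) z ∈ sup {x0} n := by
        refine map_mem_supported _ (fun l hl => ?_) hz
        rw [mapL_single]
        refine single_mem_supported F _ ⟨by simp [hl.1], fun y hy => ?_⟩
        obtain ⟨x, -, rfl⟩ := List.mem_map.1 hy
        simp [h]
      refine ⟨cone x0 (mapL (h 0) z), sup_le_VR (S := {x0}) (by simpa using hx0)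
        (by simpa using hδ) _ (cone_mem_sup (Set.mem_singleton _) h1), ?_⟩
      rw [dL_cone, dL_mapL, hd, map_zero, map_zero, add_zero]
    | succ j ih =>
      intro hj
      obtain ⟨c, hc, hc'⟩ := ih (by omega)
      refine ⟨c + lin (prism (h j) (h (j + 1))) z, Submodule.add_mem _ hc (lin_mem ?_), ?_⟩
      · intro l hl
        have h1 := prism_mem (h j) (h (j + 1))
          {y | ∃ x ∈ l, y = h j x ∨ y = h (j + 1) x} l
          (fun x hx => ⟨⟨x, hx, Or.inl rfl⟩, ⟨x, hx, Or.inr rfl⟩⟩)
        rw [(hz hl).1] at h1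
        refine sup_le_VR ?_ ?_ _ h1
        · rintro _ ⟨x, hx, rfl | rfl⟩
          · exact hmem _ (by omega) _ ((hz hl).2.1 x hx)
          · exact hmem _ hj _ ((hz hl).2.1 x hx)
        · have hb := fun x hx y hy => hMδ l hl x (List.mem_toFinset.2 hx) y (List.mem_toFinset.2 hy)
          rintro _ ⟨x, hx, rfl | rfl⟩ _ ⟨y, hy, rfl | rfl⟩
          · exact (hdist _ _ (by omega) (by omega) (Or.inl rfl) x y).trans_lt (hb x hx y hy)
          · exact (hdist _ _ (by omega) hj (Or.inr rfl) x y).trans_lt (hb x hx y hy)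
          · rw [dist_comm]
            exact (hdist _ _ (by omega) hj (Or.inr rfl) y x).trans_lt (hb y hy x hx)
          · exact (hdist _ _ hj hj (Or.inl rfl) x y).trans_lt (hb x hx y hy)
      · rw [map_add, hc', dL_lin_prism, hd, map_zero, add_zero, ← add_assoc, add_self', zero_add]
  obtain ⟨c, hc, hc'⟩ := key M le_rfl
  refine ⟨c, hc, hc'.trans ?_⟩
  have : h M = id := by
    ext x
    simp [h, hM'.ne']
  rw [this]
  exact basis_ext (L := mapL id) (L' := LinearMap.id) (fun l => by simp) z

/-- The diamond in the plane. -/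
def diamond : Set (ℝ × ℝ) := {p | |p.1| + |p.2| ≤ 1}

/-- The side of the diamond in the first quadrant. -/
def side : Set (ℝ × ℝ) := {p | 0 ≤ p.1 ∧ 0 ≤ p.2 ∧ p.1 + p.2 = 1}

/-- Rotation by a right angle. -/
def rot (p : ℝ × ℝ) : ℝ × ℝ := (-p.2, p.1)

theorem convex_diamond : Convex ℝ diamond := by
  intro p hp q hq a b ha hb hab
  simp only [diamond, Set.mem_setOf_eq, Prod.fst_add, Prod.smul_fst, smul_eq_mul, Prod.snd_add,
    Prod.smul_snd] at *
  have h1 := abs_add_le (a * p.1) (b * q.1)
  have h2 := abs_add_le (a * p.2) (b * q.2)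
  rw [abs_mul, abs_mul, abs_of_nonneg ha, abs_of_nonneg hb] at h1 h2
  nlinarith

theorem convex_side : Convex ℝ side := by
  intro p hp q hq a b ha hb hab
  simp only [side, Set.mem_setOf_eq, Prod.fst_add, Prod.smul_fst, smul_eq_mul, Prod.snd_add,
    Prod.smul_snd] at *
  refine ⟨by nlinarith, by nlinarith, ?_⟩
  linear_combination a * hp.2.2 + b * hq.2.2 + hab

theorem rot_mem {p : ℝ × ℝ} (h : p ∈ diamond) : rot p ∈ diamond := by
  simp only [diamond, rot, Set.mem_setOf_eq, abs_neg] at *
  linarith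

theorem side_sub : side ⊆ diamond := by
  rintro p ⟨h1, h2, h3⟩
  simp only [diamond, Set.mem_setOf_eq, abs_of_nonneg h1, abs_of_nonneg h2, h3, le_refl]

theorem dist_rot (p q : ℝ × ℝ) : dist (rot p) (rot q) = dist p q := by
  simp [rot, Prod.dist_eq, max_comm]

theorem mapL_rot_mem {δ : ℝ} {n : ℕ} {z : List (ℝ × ℝ) →₀ F} (hz : z ∈ VR δ diamond n) :
    mapL rot z ∈ VR δ diamond n := by
  refine map_mem_supported _ (fun l hl => ?_) hz
  rw [mapL_single]
  refine single_mem_supported F _ ⟨by simp [hl.1], fun y hy => ?_, fun y hy y' hy' => ?_⟩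
  · obtain ⟨x, hx, rfl⟩ := List.mem_map.1 hy
    exact rot_mem (hl.2.1 x hx)
  · obtain ⟨x, hx, rfl⟩ := List.mem_map.1 hy
    obtain ⟨x', hx', rfl⟩ := List.mem_map.1 hy'
    rw [dist_rot]
    exact hl.2.2 x hx x' hx'

/-- Evaluation of a function of two points on lists. -/
def ev2 (ζ : X → X → F) : List X → F
  | [p, q] => ζ p q
  | _ => 0

/-- Evaluation of a function of one point on lists. -/
def ev1 (θ : X → F) : List X → F
  | [p] => θ p
  | _ => 0

theorem disc_lemma {δ : ℝ} (hδ : 0 < δ) (θ : ℝ × ℝ → F) (ζ : ℝ × ℝ → ℝ × ℝ → F)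
    (hζ : ∀ p ∈ diamond, ∀ q ∈ diamond, ∀ r ∈ diamond, dist p q < δ → dist p r < δ →
      dist q r < δ → ζ q r + ζ p r + ζ p q = 0)
    (hθ : ∀ p ∈ side, ∀ q ∈ side, dist p q < δ → ζ p q + ζ (rot p) (rot q) +
      ζ (rot (rot p)) (rot (rot q)) + ζ (rot (rot (rot p))) (rot (rot (rot q))) = θ p + θ q) :
    θ (1, 0) = θ (0, 1) := by
  have m1 : ((1 : ℝ), (0 : ℝ)) ∈ side := by simp [side]
  have m2 : ((0 : ℝ), (1 : ℝ)) ∈ side := by simp [side]
  obtain ⟨c, hc, hc'⟩ := VR_acyclic hδ convex_side m1 1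
    (single [(1, 0)] 1 + single [(0, 1)] 1)
    (Submodule.add_mem _ (single_mem_supported F _ ⟨rfl, by simpa using m1, by simpa using hδ⟩)
      (single_mem_supported F _ ⟨rfl, by simpa using m2, by simpa using hδ⟩))
    (by simp [bdL, add_self'])
  have hcd := VR_mono δ side_sub _ hc
  obtain ⟨D, hD, hD'⟩ := VR_acyclic hδ convex_diamond (side_sub m1) 2
    (c + mapL rot c + mapL rot (mapL rot c) + mapL rot (mapL rot (mapL rot c)))
    (Submodule.add_mem _ (Submodule.add_mem _ (Submodule.add_mem _ hcd (mapL_rot_mem hcd))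
      (mapL_rot_mem (mapL_rot_mem hcd))) (mapL_rot_mem (mapL_rot_mem (mapL_rot_mem hcd))))
    (by
      simp only [map_add, dL_mapL, hc', mapL_single, List.map_cons, List.map_nil, rot, neg_zero,
        neg_neg]
      have a1 := add_self' (single [((1 : ℝ), (0 : ℝ))] (1 : F))
      have a2 := add_self' (single [((0 : ℝ), (1 : ℝ))] (1 : F))
      have a3 := add_self' (single [((-1 : ℝ), (0 : ℝ))] (1 : F))
      have a4 := add_self' (single [((0 : ℝ), (-1 : ℝ))] (1 : F))
      linear_combination (norm := abel) a1 + a2 + a3 + a4)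
  have h1 : lin (ev2 ζ) (dL D) = 0 := by
    rw [dL, map_lin, lin_congr (h' := fun _ => 0), lin_zero]
    intro l hl
    obtain ⟨h3, h4, h5⟩ := hD hl
    match l, h3 with
    | [p, q, r], _ =>
      simp only [bdL, map_zero, add_zero, map_add, cone_single, lin_single, ev2]
      rw [← add_assoc]
      exact hζ p (h4 p (by simp)) q (h4 q (by simp)) r (h4 r (by simp))
        (h5 p (by simp) q (by simp)) (h5 p (by simp) r (by simp)) (h5 q (by simp) r (by simp))
  have h2 : lin (ev1 θ) (dL c) = lin (ev2 ζ) (dL D) := by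
    rw [hD', dL, map_lin]
    simp only [map_add, mapL, lmapDomain_apply, lin_mapDomain]
    rw [← lin_add, ← lin_add, ← lin_add]
    refine lin_congr fun l hl => ?_
    obtain ⟨h3, h4, h5⟩ := hc hl
    match l, h3 with
    | [p, q], _ =>
      simp only [bdL, map_zero, add_zero, map_add, cone_single, lin_single, ev2, ev1,
        List.map_cons, List.map_nil]
      rw [hθ p (h4 p (by simp)) q (h4 q (by simp)) (h5 p (by simp) q (by simp)), add_comm]
  rw [h1, hc', map_add, lin_single, lin_single] at h2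
  simp only [ev1] at h2
  have := add_self' (θ (0, 1))
  linear_combination h2 - this

end Vale.Agent.P052
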